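import Claimed.Agent.R322.Sx.Ctl

/-!
# R322 / Sx / Moment / Avg : calculus of the Gaussian averages `S.avg χ v x g`

Integrability, measurability, monotonicity and linearity of `avg`; averages of `(e + λ)`-weighted
functions and their tails at a controlled scale; the numerical smallness facts in the level.
-/

set_option autoImplicit false

namespace Claimed.Agent.R322.Sx

open MeasureTheory Set Metric Filter Topology
open scoped ENNReal NNReal InnerProductSpace

variable {m n Q : ℕ}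

/-! ### measurability -/

theorem av_continuous_uu (x : E m) (v : ℝ) : Continuous (uu x v) := by
  unfold uu; fun_prop

theorem av_measurable_uu (x : E m) (v : ℝ) :
    Measurable fun q : E m × E n => uu x v q.1 :=
  ((av_continuous_uu x v).comp continuous_fst).measurable

theorem av_measurable_tr {k : ℕ} {α : Type*} [MeasurableSpace α] {A : α → E k →L[ℝ] E k}
    (hA : Measurable A) : Measurable fun a => tr (A a) := by
  unfold tr
  refine Finset.measurable_sum _ fun i _ => ?_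
  have h1 : Measurable fun a => A a (EuclideanSpace.single i (1 : ℝ)) :=
    hA.apply_continuousLinearMap _
  have h2 : Continuous fun z : E k => z i := by fun_prop
  exact h2.measurable.comp h1

theorem av_abs_tr_le {k : ℕ} (A : E k →L[ℝ] E k) : |tr A| ≤ k * ‖A‖ := by
  unfold tr
  calc |∑ i : Fin k, A (EuclideanSpace.single i (1 : ℝ)) i|
      ≤ ∑ i : Fin k, |A (EuclideanSpace.single i (1 : ℝ)) i| := Finset.abs_sum_le_sum_abs _ _
    _ ≤ ∑ _i : Fin k, ‖A‖ := by
        refine Finset.sum_le_sum fun i _ => ?_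
        have h1 : |A (EuclideanSpace.single i (1 : ℝ)) i| ≤ ‖A (EuclideanSpace.single i (1 : ℝ))‖ := by
          rw [← Real.norm_eq_abs]
          exact PiLp.norm_apply_le _ i
        refine h1.trans ((A.le_opNorm _).trans ?_)
        simp
    _ = k * ‖A‖ := by simp

theorem av_measurable_comp {k l p : ℕ} {α : Type*} [MeasurableSpace α] {A : α → E l →L[ℝ] E p}
    {B : α → E k →L[ℝ] E l} (hA : Measurable A) (hB : Measurable B) :
    Measurable fun a => (A a) ∘L (B a) := by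
  have hc : Continuous fun p : (E l →L[ℝ] E p) × (E k →L[ℝ] E l) => p.1 ∘L p.2 :=
    isBoundedBilinearMap_comp.continuous
  exact hc.measurable.comp (hA.prodMk hB)

/-! ### integrability, monotonicity, linearity -/

section Root

variable {S : Sys m n} {κ Cg T : ℝ} {χ : E m → ℝ}

theorem av_measurable_ker (hR : Root S Q κ Cg T χ) (v : ℝ) (x : E m) :
    Measurable (Sys.ker χ v x) := by
  unfold Sys.ker
  exact (cmpl_chi_continuous hR).measurable.mul
    ((cmpl_continuous_gauss m v).comp (continuous_id.sub continuous_const)).measurable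

/-- integrands of polynomial growth in `u` are integrable against the kernel. -/
theorem av_int (hR : Root S Q κ Cg T χ) {v : ℝ} (hv : 0 < v) (x : E m) {g : E m × E n → ℝ}
    (hg : Measurable g) (C : ℝ) (j : ℕ) (hb : ∀ q, |g q| ≤ C * (1 + ‖uu x v q.1‖ ^ 2) ^ j) :
    Integrable (fun q => Sys.ker χ v x q.1 * g q) S.μ := by
  have hV := hR.hyp.valid
  have hC : 0 ≤ C := by
    have h1 := hb (x, 0)
    have h2 : uu x v (x, (0 : E n)).1 = 0 := by simp [uu]
    rw [h2] at h1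
    simp at h1
    exact (abs_nonneg _).trans h1
  refine hV.integrable_of_baseCpt (((av_measurable_ker hR v x).comp measurable_fst).mul hg)
    ⟨closedBall (0 : E m) 3, isCompact_closedBall _ _, cmpl_K_subset hR, fun q hq => ?_⟩
    (C * (kC m j * (2 * Real.pi * (2 * v) ^ 2) ^ (-(m : ℝ) / 2))) (Eventually.of_forall fun q => ?_)
  · simp only [Sys.ker, cmpl_chi_zero hR hq, zero_mul]
  · rw [abs_mul, abs_of_nonneg (ctl_ker_nonneg hR v x q.1)]
    calc Sys.ker χ v x q.1 * |g q| ≤ Sys.ker χ v x q.1 * (C * (1 + ‖uu x v q.1‖ ^ 2) ^ j) :=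
          mul_le_mul_of_nonneg_left (hb q) (ctl_ker_nonneg hR v x q.1)
      _ = C * kerP χ v x j q.1 := by unfold kerP; ring
      _ ≤ C * (kC m j * (2 * Real.pi * (2 * v) ^ 2) ^ (-(m : ℝ) / 2)) := by
          apply mul_le_mul_of_nonneg_left _ hC
          refine (kerP_le' hR.cut.nonneg hv x j q.1).trans ?_
          apply mul_le_mul_of_nonneg_left _ (kC_pos m j).le
          unfold Sys.ker
          calc χ q.1 * gauss m (2 * v) (q.1 - x)
              ≤ 1 * (2 * Real.pi * (2 * v) ^ 2) ^ (-(m : ℝ) / 2) :=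
                mul_le_mul (hR.cut.le_one _) (cmpl_gauss_le m _ _) (cmpl_gauss_nonneg m _ _)
                  zero_le_one
            _ = _ := one_mul _

theorem av_mono (hR : Root S Q κ Cg T χ) (v : ℝ) (x : E m) {f g : E m × E n → ℝ}
    (hf : Integrable (fun q => Sys.ker χ v x q.1 * f q) S.μ)
    (hg : Integrable (fun q => Sys.ker χ v x q.1 * g q) S.μ) (h : ∀ᵐ q ∂S.μ, f q ≤ g q) :
    S.avg χ v x f ≤ S.avg χ v x g := by
  unfold Sys.avg
  refine integral_mono_ae hf hg ?_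
  filter_upwards [h] with q hq
  exact mul_le_mul_of_nonneg_left hq (ctl_ker_nonneg hR v x q.1)

theorem av_nonneg (hR : Root S Q κ Cg T χ) (v : ℝ) (x : E m) {f : E m × E n → ℝ}
    (h : ∀ q, 0 ≤ f q) : 0 ≤ S.avg χ v x f :=
  integral_nonneg fun q => mul_nonneg (ctl_ker_nonneg hR v x q.1) (h q)

theorem av_add {v : ℝ} {x : E m} {f g : E m × E n → ℝ}
    (hf : Integrable (fun q => Sys.ker χ v x q.1 * f q) S.μ)
    (hg : Integrable (fun q => Sys.ker χ v x q.1 * g q) S.μ) :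
    S.avg χ v x (fun q => f q + g q) = S.avg χ v x f + S.avg χ v x g := by
  unfold Sys.avg
  rw [← integral_add hf hg]
  refine integral_congr_ae (Eventually.of_forall fun q => ?_)
  simp only []
  ring

theorem av_sub {v : ℝ} {x : E m} {f g : E m × E n → ℝ}
    (hf : Integrable (fun q => Sys.ker χ v x q.1 * f q) S.μ)
    (hg : Integrable (fun q => Sys.ker χ v x q.1 * g q) S.μ) :
    S.avg χ v x (fun q => f q - g q) = S.avg χ v x f - S.avg χ v x g := by
  unfold Sys.avg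
  rw [← integral_sub hf hg]
  refine integral_congr_ae (Eventually.of_forall fun q => ?_)
  simp only []
  ring

theorem av_const_mul (S : Sys m n) (χ : E m → ℝ) (v : ℝ) (x : E m) (c : ℝ) (f : E m × E n → ℝ) :
    S.avg χ v x (fun q => c * f q) = c * S.avg χ v x f := by
  unfold Sys.avg
  rw [← integral_const_mul]
  refine integral_congr_ae (Eventually.of_forall fun q => ?_)
  simp only []
  ring

theorem av_int_const_mul {v : ℝ} {x : E m} {f : E m × E n → ℝ} (c : ℝ)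
    (hf : Integrable (fun q => Sys.ker χ v x q.1 * f q) S.μ) :
    Integrable (fun q => Sys.ker χ v x q.1 * (c * f q)) S.μ := by
  refine (hf.const_mul c).congr (Eventually.of_forall fun q => ?_)
  simp only []
  ring

theorem av_int_add {v : ℝ} {x : E m} {f g : E m × E n → ℝ}
    (hf : Integrable (fun q => Sys.ker χ v x q.1 * f q) S.μ)
    (hg : Integrable (fun q => Sys.ker χ v x q.1 * g q) S.μ) :
    Integrable (fun q => Sys.ker χ v x q.1 * (f q + g q)) S.μ := by
  refine (hf.add hg).congr (Eventually.of_forall fun q => ?_)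
  simp only [Pi.add_apply]
  ring

theorem av_int_sub {v : ℝ} {x : E m} {f g : E m × E n → ℝ}
    (hf : Integrable (fun q => Sys.ker χ v x q.1 * f q) S.μ)
    (hg : Integrable (fun q => Sys.ker χ v x q.1 * g q) S.μ) :
    Integrable (fun q => Sys.ker χ v x q.1 * (f q - g q)) S.μ := by
  refine (hf.sub hg).congr (Eventually.of_forall fun q => ?_)
  simp only [Pi.sub_apply]
  ring

end Root

/-! ### `(e + λ)`-weighted averages at a controlled scale -/

/-- Gaussian polynomial moments of `e + λ`. -/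
theorem ctl_avgE (m n Q : ℕ) (hm : 1 ≤ m) (hQ : 1 ≤ Q) (κ Cg K1 J : ℝ) (hK1 : 1 ≤ K1)
    (hJ : 0 ≤ J) (j : ℕ) :
    ∃ C T0 : ℝ, 0 < C ∧ ∀ P : PD m n Q, P.Ok κ Cg → T0 ≤ P.T → ∀ v δ, P.Ctl K1 J v δ →
      P.S.avg P.χ v P.x (fun q => (1 + ‖uu P.x v q.1‖ ^ 2) ^ j * (P.S.e q + P.S.lam q)) ≤ C * δ := by
  obtain ⟨C, T0, hC, h⟩ := ctl_poly m n Q hm hQ κ Cg K1 J hK1 hJ j
  refine ⟨C, T0, hC, fun P hP hT v δ hc => ?_⟩
  have hR := hP.root
  have hgm : Measurable fun y : E m => (1 + ‖uu P.x v y‖ ^ 2) ^ j :=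
    (by have := av_continuous_uu P.x v; fun_prop : Continuous fun y : E m =>
      (1 + ‖uu P.x v y‖ ^ 2) ^ j).measurable
  have hi : Integrable (fun y => Sys.ker P.χ v P.x y * (1 + ‖uu P.x v y‖ ^ 2) ^ j) (P.S.tau Q) :=
    ctl_root_integrable hR (kerP_continuous (cmpl_chi_continuous hR) v P.x j).measurable
      (kerP_nonneg hR.cut.nonneg v P.x j) P.x (kerP_le' hR.cut.nonneg hc.v_pos P.x j)
  exact (ctl_avg_le P hP hc.v_pos _ hgm (fun y => by positivity) hi).trans (h P hP hT v δ hc)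

/-- Gaussian tails of `e + λ`. -/
theorem ctl_avgE_tail (m n Q : ℕ) (hm : 1 ≤ m) (hQ : 1 ≤ Q) (κ Cg K1 J : ℝ) (hK1 : 1 ≤ K1)
    (hJ : 0 ≤ J) (j : ℕ) :
    ∃ C c T0 : ℝ, 0 < C ∧ 0 < c ∧ ∀ P : PD m n Q, P.Ok κ Cg → T0 ≤ P.T → ∀ v δ,
      P.Ctl K1 J v δ → ∀ R : ℝ, 1 ≤ R →
      P.S.avg P.χ v P.x (fun q => {q : E m × E n | R * v < ‖q.1 - P.x‖}.indicator
          (fun q => (1 + ‖uu P.x v q.1‖ ^ 2) ^ j * (P.S.e q + P.S.lam q)) q)
        ≤ C * Real.exp (-c * R ^ 2) * δ := by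
  obtain ⟨C, c, T0, hC, hc0, h⟩ := ctl_tail m n Q hm hQ κ Cg K1 J hK1 hJ j
  refine ⟨C, c, T0, hC, hc0, fun P hP hT v δ hc R hR1 => ?_⟩
  have hR := hP.root
  set A : Set (E m) := (closedBall P.x (R * v))ᶜ with hA
  have hAm : MeasurableSet A := isClosed_closedBall.measurableSet.compl
  have hgm : Measurable fun y : E m => (1 + ‖uu P.x v y‖ ^ 2) ^ j :=
    (by have := av_continuous_uu P.x v; fun_prop : Continuous fun y : E m =>
      (1 + ‖uu P.x v y‖ ^ 2) ^ j).measurable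
  have e1 : (fun y => Sys.ker P.χ v P.x y * A.indicator (fun y => (1 + ‖uu P.x v y‖ ^ 2) ^ j) y)
      = A.indicator (kerP P.χ v P.x j) := by
    funext y
    by_cases hy : y ∈ A
    · simp only [indicator_of_mem hy]; rfl
    · simp only [indicator_of_notMem hy, mul_zero]
  have hi0 : Integrable (kerP P.χ v P.x j) (P.S.tau Q) :=
    ctl_root_integrable hR (kerP_continuous (cmpl_chi_continuous hR) v P.x j).measurable
      (kerP_nonneg hR.cut.nonneg v P.x j) P.x (kerP_le' hR.cut.nonneg hc.v_pos P.x j)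
  have hi : Integrable (fun y => Sys.ker P.χ v P.x y
      * A.indicator (fun y => (1 + ‖uu P.x v y‖ ^ 2) ^ j) y) (P.S.tau Q) := by
    rw [e1]; exact hi0.indicator hAm
  have h1 := ctl_avg_le P hP hc.v_pos _ (hgm.indicator hAm)
    (fun y => indicator_nonneg (fun y _ => by positivity) y) hi
  rw [e1, integral_indicator hAm] at h1
  refine le_trans (le_of_eq ?_) (h1.trans (h P hP hT v δ hc R hR1))
  unfold Sys.avg
  refine integral_congr_ae (Eventually.of_forall fun q => ?_)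
  by_cases hq : R * v < ‖q.1 - P.x‖
  · have h4 : q ∈ {q : E m × E n | R * v < ‖q.1 - P.x‖} := hq
    have h5 : q.1 ∈ A := by
      rw [hA, mem_compl_iff, mem_closedBall, dist_eq_norm, not_le]; exact hq
    simp only [indicator_of_mem h4, indicator_of_mem h5]
  · have h4 : q ∉ {q : E m × E n | R * v < ‖q.1 - P.x‖} := hq
    have h5 : q.1 ∉ A := by
      rw [hA, mem_compl_iff, mem_closedBall, dist_eq_norm, not_not]; exact not_lt.1 hq
    simp only [indicator_of_notMem h4, indicator_of_notMem h5, mul_zero, zero_mul]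

/-! ### numerical smallness in the level -/

theorem sm_rpow_ge {L T Pe : ℝ} (h1 : 1 ≤ L) (hLT : L ≤ T) : T ^ (-|Pe|) ≤ L ^ (-Pe) := by
  by_cases hP : 0 ≤ Pe
  · rw [abs_of_nonneg hP]
    exact Real.rpow_le_rpow_of_nonpos (by linarith) hLT (by linarith)
  · rw [not_le] at hP
    have h2 : T ^ (-|Pe|) ≤ 1 :=
      Real.rpow_le_one_of_one_le_of_nonpos (h1.trans hLT) (by have := abs_nonneg Pe; linarith)
    have h3 : 1 ≤ L ^ (-Pe) := Real.one_le_rpow h1 (by linarith)
    linarith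

/-- `A x^p e^{-b x} ≤ x^{-q}` for large `x`. -/
theorem sm_exp (A p q b : ℝ) (hb : 0 < b) :
    ∃ x0 : ℝ, 1 ≤ x0 ∧ ∀ x, x0 ≤ x → A * x ^ p * Real.exp (-b * x) ≤ x ^ (-q) := by
  have h := tendsto_rpow_mul_exp_neg_mul_atTop_nhds_zero (p + q) b hb
  have hA : 0 < |A| + 1 := by positivity
  obtain ⟨x0, hx0⟩ := eventually_atTop.1 (h.eventually (ge_mem_nhds (div_pos one_pos hA)))
  refine ⟨max x0 1, le_max_right _ _, fun x hx => ?_⟩
  have hx1 : 1 ≤ x := (le_max_right _ _).trans hx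
  have hxp : 0 < x := by linarith
  have h1 := hx0 x ((le_max_left _ _).trans hx)
  rw [le_div_iff₀ hA] at h1
  have h2 : 0 < x ^ (-q) := Real.rpow_pos_of_pos hxp _
  have h3 : x ^ p = x ^ (p + q) * x ^ (-q) := by
    rw [← Real.rpow_add hxp]; congr 1; ring
  have h4 : 0 ≤ x ^ p * Real.exp (-b * x) := by positivity
  calc A * x ^ p * Real.exp (-b * x) = A * (x ^ p * Real.exp (-b * x)) := by ring
    _ ≤ (|A| + 1) * (x ^ p * Real.exp (-b * x)) :=
        mul_le_mul_of_nonneg_right (by linarith [le_abs_self A]) h4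
    _ = (x ^ (p + q) * Real.exp (-b * x) * (|A| + 1)) * x ^ (-q) := by rw [h3]; ring
    _ ≤ 1 * x ^ (-q) := mul_le_mul_of_nonneg_right h1 h2.le
    _ = _ := one_mul _

theorem sm_tailG (m : ℕ) (A K0 Pe : ℝ) :
    ∃ T0 : ℝ, 4 ≤ T0 ∧ ∀ T v : ℝ, T0 ≤ T → 0 < v → v * T ≤ 1 →
      A * tailG m K0 v 1 1 ≤ T ^ (-|Pe|) * Real.exp (-T / 2) := by
  obtain ⟨y0, hy0, h⟩ := sm_exp (2 * (|A| * |K0|)) m |Pe| (1 / 2) (by norm_num)
  refine ⟨max y0 4, le_max_right _ _, fun T v hT hv hvT => ?_⟩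
  have hT4 : 4 ≤ T := (le_max_right _ _).trans hT
  have hTy : y0 ≤ T := (le_max_left _ _).trans hT
  set y : ℝ := v⁻¹ with hy
  have hyT : T ≤ y := by
    rw [hy, ← one_div, le_div_iff₀ hv]; linarith
  have hy0' : 0 < y := by linarith
  have h1 := h y (hTy.trans hyT)
  have e1 : v ^ (-(m : ℝ)) = y ^ (m : ℝ) := by
    rw [hy, Real.inv_rpow hv.le, Real.rpow_neg hv.le]
  have e2 : -(1 : ℝ) ^ 2 / (4 * v ^ 2) = -(y ^ 2 / 4) := by
    rw [hy]; field_simp
  have h2 : Real.exp (-(y ^ 2 / 4)) ≤ Real.exp (-(1 / 2) * y) * Real.exp (-T / 2) := by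
    rw [← Real.exp_add]
    apply Real.exp_le_exp.2
    nlinarith
  have h3 : y ^ (-|Pe|) ≤ T ^ (-|Pe|) :=
    Real.rpow_le_rpow_of_nonpos (by linarith) hyT (by have := abs_nonneg Pe; linarith)
  have h4 : 0 ≤ y ^ (m : ℝ) := by positivity
  unfold tailG
  rw [e1, e2]
  calc A * (K0 * (1 + (1 : ℝ)⁻¹) * y ^ (m : ℝ) * Real.exp (-(y ^ 2 / 4)))
      = 2 * (A * K0) * (y ^ (m : ℝ) * Real.exp (-(y ^ 2 / 4))) := by norm_num; ring
    _ ≤ 2 * (|A| * |K0|) * (y ^ (m : ℝ) * Real.exp (-(y ^ 2 / 4))) := by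
        apply mul_le_mul_of_nonneg_right _ (by positivity)
        have : A * K0 ≤ |A| * |K0| := by rw [← abs_mul]; exact le_abs_self _
        linarith
    _ ≤ 2 * (|A| * |K0|) * (y ^ (m : ℝ) * (Real.exp (-(1 / 2) * y) * Real.exp (-T / 2))) := by
        gcongr
    _ = (2 * (|A| * |K0|) * y ^ (m : ℝ) * Real.exp (-(1 / 2) * y)) * Real.exp (-T / 2) := by ring
    _ ≤ y ^ (-|Pe|) * Real.exp (-T / 2) := mul_le_mul_of_nonneg_right h1 (Real.exp_pos _).le
    _ ≤ _ := mul_le_mul_of_nonneg_right h3 (Real.exp_pos _).le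

/-- all the smallness facts used at a controlled scale. -/
theorem ctl_smalls (m n Q : ℕ) (hQ : 1 ≤ Q) (κ K1 A p Pe c γ K0 N : ℝ) (hκ : 0 < κ) (hK1 : 1 ≤ K1)
    (hc : 0 < c) (hγ : 0 < γ) :
    ∃ T0 : ℝ, ∀ P : PD m n Q, T0 ≤ P.T → ∀ J v δ, P.Ctl K1 J v δ →
      2 ≤ P.T ∧ N ≤ P.T ∧ P.ρ ≤ 1 ∧ 2 ≤ lev δ ∧ N ≤ lev δ ∧
      A * P.T ^ p * Real.exp (-κ * P.T) ≤ lev δ ^ (-Pe) ∧
      A * Real.exp (-c * lev δ ^ 2) ≤ lev δ ^ (-Pe) * δ ∧
      A * δ ^ γ ≤ lev δ ^ (-Pe) ∧
      A * tailG m K0 v 1 1 ≤ lev δ ^ (-Pe) * δ := by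
  obtain ⟨x1, hx1, h1⟩ := sm_exp A p |Pe| κ hκ
  obtain ⟨x2, hx2, h2⟩ := sm_exp A 0 Pe 1 one_pos
  obtain ⟨x3, hx3, h3⟩ := sm_exp A 0 Pe γ hγ
  obtain ⟨x4, hx4, h4⟩ := sm_tailG m A K0 Pe
  obtain ⟨T0, hT0⟩ := ctl_small m n Q hQ K1 0 0 1 (max (max (max x1 x2) (max x3 x4)) (max N (2 / c)))
    hK1 one_pos
  refine ⟨T0, fun P hT J v δ h => ?_⟩
  obtain ⟨hT2, hNT, hρ1, hl2, hNl, -⟩ := hT0 P hT J v δ h
  have hexp := h.exp_neg_lev
  have hlT := h.lev_le
  have hδ := h.δ_pos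
  have hδge := h.δ_ge
  have hv := h.v_pos
  have hroom := h.room
  generalize lev δ = L at *
  have b1 : x1 ≤ P.T := le_trans (by simp) hNT
  have b4 : x4 ≤ P.T := le_trans (by simp) hNT
  have bN : N ≤ P.T := le_trans (by simp) hNT
  have c2 : x2 ≤ L := le_trans (by simp) hNl
  have c3 : x3 ≤ L := le_trans (by simp) hNl
  have cN : N ≤ L := le_trans (by simp) hNl
  have cc : 2 / c ≤ L := le_trans (by simp) hNl
  have hL1 : 1 ≤ L := by linarith
  have hLT : L ≤ P.T := by linarith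
  have hge := sm_rpow_ge (Pe := Pe) hL1 hLT
  have hLP : 0 < L ^ (-Pe) := Real.rpow_pos_of_pos (by linarith) _
  refine ⟨hT2, bN, hρ1, hl2, cN, (h1 P.T b1).trans hge, ?_, ?_, ?_⟩
  · have h5 := h2 L c2
    rw [Real.rpow_zero, mul_one] at h5
    have h6 : Real.exp (-c * L ^ 2) ≤ Real.exp (-1 * L) * δ := by
      rw [← hexp, ← Real.exp_add]
      apply Real.exp_le_exp.2
      have : 2 ≤ c * L := by
        rw [div_le_iff₀ hc] at cc; linarith
      nlinarith
    by_cases hA : 0 ≤ A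
    · calc A * Real.exp (-c * L ^ 2) ≤ A * (Real.exp (-1 * L) * δ) :=
            mul_le_mul_of_nonneg_left h6 hA
        _ = (A * Real.exp (-1 * L)) * δ := by ring
        _ ≤ _ := mul_le_mul_of_nonneg_right h5 hδ.le
    · have : A * Real.exp (-c * L ^ 2) ≤ 0 :=
        mul_nonpos_of_nonpos_of_nonneg (by linarith) (Real.exp_pos _).le
      have h7 : 0 ≤ L ^ (-Pe) * δ := by positivity
      linarith
  · have h5 := h3 L c3
    rw [Real.rpow_zero, mul_one] at h5
    have h6 : δ ^ γ = Real.exp (-γ * L) := by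
      rw [← hexp, ← Real.exp_mul]; congr 1; ring
    rw [h6]; exact h5
  · have hT4 : P.T ≤ P.T ^ 4 := by
      have h5 : (1 : ℝ) ≤ P.T ^ 3 := one_le_pow₀ (by linarith)
      have h6 : P.T ^ 4 = P.T ^ 3 * P.T := by ring
      nlinarith
    have hvT : v * P.T ≤ 1 := by
      have := mul_le_mul_of_nonneg_left hT4 hv.le
      linarith
    refine (h4 P.T v b4 hv hvT).trans ?_
    exact mul_le_mul hge hδge (Real.exp_pos _).le hLP.le

end Claimed.Agent.R322.Sx
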