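import Claimed.Agent.R322.Sx.Moment.Flux

/-!
# R322 / Sx / Moment / Deriv : package Moment-C (the derivative of the moment, AE (5.13))

`Udot = ∫ Ġ Γ + ∫ G Γ̇`.  `horiz_err` (`gauss_horiz` with `f = Γ_v`), `normal_err` (`gauss_normal` with the
gradient field `gradF Γ_v`), `hess_avg_le` (`tr (P_vv D²Γ) = 2 e` on the pure part), `gamB_avg_le`
(`Γ (B[u,u] - e)` is small because the support over the Gaussian body is close to the wells),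
`gamDot_avg_le` (the clipping region is never met over the body).
-/

set_option autoImplicit false

namespace Claimed.Agent.R322.Sx

open MeasureTheory Set Metric Filter Topology
open scoped ENNReal NNReal InnerProductSpace

variable {m n Q : ℕ}

/-! ### the gradient field of a height multiplier -/

/-- the Riesz map as a bounded linear map. -/
theorem riesz_isBounded (n : ℕ) : IsBoundedLinearMap ℝ
    (fun y : StrongDual ℝ (E n) => (InnerProductSpace.toDual ℝ (E n)).symm y) where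
  map_add := fun x y => map_add _ x y
  map_smul := fun c y => by simp
  bound := ⟨1, one_pos, fun y => by simp⟩

/-- gradient field. -/
noncomputable def gradF (f : E n → ℝ) (ζ : E n) : E n :=
  (InnerProductSpace.toDual ℝ (E n)).symm (fderiv ℝ f ζ)

theorem gradF_inner (f : E n → ℝ) (ζ η : E n) : ⟪gradF f ζ, η⟫_ℝ = fderiv ℝ f ζ η := by
  unfold gradF
  exact InnerProductSpace.toDual_symm_apply

theorem gradF_norm (f : E n → ℝ) (ζ : E n) : ‖gradF f ζ‖ = ‖fderiv ℝ f ζ‖ := by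
  unfold gradF
  exact LinearIsometryEquiv.norm_map _ _

theorem gradF_contDiff {f : E n → ℝ} (hf : ContDiff ℝ 2 f) : ContDiff ℝ 1 (gradF f) := by
  have h1 : ContDiff ℝ 1 (fderiv ℝ f) := hf.fderiv_right (by norm_num)
  exact (riesz_isBounded n).contDiff.comp h1

theorem gradF_fderiv {f : E n → ℝ} (hf : ContDiff ℝ 2 f) (ζ ξ : E n) :
    fderiv ℝ (gradF f) ζ ξ = (InnerProductSpace.toDual ℝ (E n)).symm (fderiv ℝ (fderiv ℝ f) ζ ξ) := by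
  have h1 : ContDiff ℝ 1 (fderiv ℝ f) := hf.fderiv_right (by norm_num)
  have h2 : DifferentiableAt ℝ (fderiv ℝ f) ζ := (h1.differentiable one_ne_zero) ζ
  have h3 : HasFDerivAt (gradF f)
      ((riesz_isBounded n).toContinuousLinearMap ∘L fderiv ℝ (fderiv ℝ f) ζ) ζ :=
    ((riesz_isBounded n).hasFDerivAt (x := fderiv ℝ f ζ)).comp ζ h2.hasFDerivAt
  rw [h3.fderiv]
  rfl

theorem gradF_fderiv_inner {f : E n → ℝ} (hf : ContDiff ℝ 2 f) (ζ ξ η : E n) :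
    ⟪fderiv ℝ (gradF f) ζ ξ, η⟫_ℝ = fderiv ℝ (fderiv ℝ f) ζ ξ η := by
  rw [gradF_fderiv hf]
  exact InnerProductSpace.toDual_symm_apply

theorem gradF_fderiv_norm_le {f : E n → ℝ} (hf : ContDiff ℝ 2 f) (ζ : E n) :
    ‖fderiv ℝ (gradF f) ζ‖ ≤ ‖fderiv ℝ (fderiv ℝ f) ζ‖ := by
  refine ContinuousLinearMap.opNorm_le_bound _ (by positivity) fun ξ => ?_
  rw [gradF_fderiv hf, LinearIsometryEquiv.norm_map]
  exact ContinuousLinearMap.le_opNorm _ _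

/-- on the pure part `tr (P_vv D²Γ) = 2 e`. -/
theorem tr_Pvv_hess {S : Sys m n} (hV : S.Valid) {f : E n → ℝ} (hf : ContDiff ℝ 2 f)
    (q : E m × E n) (ζ : E n) (h : ∀ ξ η, fderiv ℝ (fderiv ℝ f) ζ ξ η = 2 * ⟪ξ, η⟫_ℝ) :
    tr (S.Pvv q ∘L fderiv ℝ (gradF f) ζ) = 2 * S.e q := by
  have e1 : S.e q = tr (S.Pvv q) := hV.tr_B_eq q
  rw [e1, tr_eq_sum_inner, tr_eq_sum_inner, Finset.mul_sum]
  refine Finset.sum_congr rfl fun i _ => ?_
  rw [ContinuousLinearMap.comp_apply, hV.Pvv_symm, gradF_fderiv_inner hf, h, real_inner_comm]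

/-! ### the mass tail integrand -/

/-- the mass tail integrand of `ctl_mass`. -/
noncomputable def tlM (P : PD m n Q) (v R : ℝ) (j : ℕ) : E m × E n → ℝ :=
  fun q => {q : E m × E n | R * v < ‖q.1 - P.x‖}.indicator
    (fun q => (1 + ‖uu P.x v q.1‖ ^ 2) ^ j) q

theorem tlM_nonneg (P : PD m n Q) (v R : ℝ) (j : ℕ) (q : E m × E n) : 0 ≤ tlM P v R j q :=
  indicator_nonneg (fun q _ => by positivity) q

theorem tlE_nonneg {κ Cg : ℝ} {P : PD m n Q} (hP : P.Ok κ Cg) (v R : ℝ) (j : ℕ) (q : E m × E n) :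
    0 ≤ tlE P v R j q := by
  have hV := hP.root.hyp.valid
  exact indicator_nonneg (fun q _ => by
    have := hV.e_nonneg q
    have := hV.lam_nonneg q
    positivity) q

theorem av_int_tlM {κ Cg : ℝ} {P : PD m n Q} (hP : P.Ok κ Cg) {v : ℝ} (hv : 0 < v) (R : ℝ) (j : ℕ) :
    Integrable (fun q => Sys.ker P.χ v P.x q.1 * tlM P v R j q) P.S.μ := by
  refine av_int_ind (measurableSet_tl P.x (R * v)) ?_
  have hm1 : Measurable fun q : E m × E n => (1 + ‖uu P.x v q.1‖ ^ 2) ^ j :=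
    ((measurable_const.add ((av_measurable_uu P.x v).norm.pow_const 2)).pow_const j)
  refine av_int hP.root hv P.x hm1 1 j (fun q => ?_)
  rw [abs_of_nonneg (by positivity), one_mul]

theorem av_int_tlE {κ Cg : ℝ} {P : PD m n Q} (hP : P.Ok κ Cg) {v : ℝ} (hv : 0 < v) (R : ℝ) (j : ℕ) :
    Integrable (fun q => Sys.ker P.χ v P.x q.1 * tlE P v R j q) P.S.μ :=
  av_int_ind (measurableSet_tl P.x (R * v)) (av_int_E hP.root hv P.x j)

theorem norm_uu_le {x : E m} {v R : ℝ} (hv : 0 < v) {y : E m} (h : ‖y - x‖ ≤ R * v) :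
    ‖uu x v y‖ ≤ R := by
  unfold uu
  rw [norm_smul, Real.norm_eq_abs, abs_of_pos (inv_pos.2 hv), inv_mul_eq_div, div_le_iff₀ hv]
  exact h

/-! ### the three curved error averages of `gauss_horiz` -/

theorem horiz_err_avg {κ Cg : ℝ} {P : PD m n Q} (hP : P.Ok κ Cg) {v Cq a1 M1 R : ℝ} (hv : 0 < v)
    (hR0 : 0 ≤ R) {Γ0 : E n → ℝ} (hc : Continuous Γ0) (h0 : ∀ ζ, 0 ≤ gam Γ0 v ζ)
    (hw : ∀ ζ, ‖fderiv ℝ (gam Γ0 v) ζ‖ ^ 2 ≤ Cq * gam Γ0 v ζ)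
    (ha1 : P.S.avg P.χ v P.x (fun q => (1 + ‖uu P.x v q.1‖ ^ 2) ^ 1 * (P.S.e q + P.S.lam q)) ≤ a1)
    (hM1 : P.S.avg P.χ v P.x (tlM P v R 1) ≤ M1) :
    P.S.avg P.χ v P.x (fun q => |gam Γ0 v q.2| * (P.S.e q + P.S.lam q) * (1 + ‖uu P.x v q.1‖ ^ 2))
      ≤ 2 * v ^ 2 * a1 ∧
    P.S.avg P.χ v P.x (fun q => |gam Γ0 v q.2| * ‖uu P.x v q.1‖) ≤ R * P.U Γ0 v + 2 * v ^ 2 * M1 ∧
    P.S.avg P.χ v P.x (fun q => ‖fderiv ℝ (gam Γ0 v) q.2‖ * ‖uu P.x v q.1‖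
        * (Real.sqrt (P.S.e q) + Real.sqrt (P.S.lam q)))
      ≤ Cq / (2 * v) * P.U Γ0 v + v * a1 := by
  have hR := hP.root
  have hV := hR.hyp.valid
  have i1 := av_int_E hR hv P.x 1
  have ig := av_int_gam hP hv hc h0
  have iM := av_int_tlM hP hv R 1
  have hv2 : 0 ≤ 2 * v ^ 2 := by positivity
  refine ⟨?_, ?_, ?_⟩
  · refine le_trans (av_mono_nonneg hR v P.x (fun q => ?_) (av_int_const_mul (2 * v ^ 2) i1)
      (fun q => ?_)) ?_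
    · have he := hV.e_nonneg q
      have hl := hV.lam_nonneg q
      positivity
    · have he := hV.e_nonneg q
      have hl := hV.lam_nonneg q
      rw [abs_of_nonneg (h0 q.2), pow_one]
      have h1 := gam_le_two Γ0 v q.2
      have h2 : 0 ≤ (1 + ‖uu P.x v q.1‖ ^ 2) * (P.S.e q + P.S.lam q) := by positivity
      calc gam Γ0 v q.2 * (P.S.e q + P.S.lam q) * (1 + ‖uu P.x v q.1‖ ^ 2)
          = gam Γ0 v q.2 * ((1 + ‖uu P.x v q.1‖ ^ 2) * (P.S.e q + P.S.lam q)) := by ring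
        _ ≤ _ := mul_le_mul_of_nonneg_right h1 h2
    · rw [av_const_mul]
      exact mul_le_mul_of_nonneg_left ha1 hv2
  · refine le_trans (av_mono_nonneg hR v P.x (fun q => by positivity)
      (av_int_add (av_int_const_mul R ig) (av_int_const_mul (2 * v ^ 2) iM)) (fun q => ?_)) ?_
    · rw [abs_of_nonneg (h0 q.2)]
      have hg := h0 q.2
      by_cases hq : ‖q.1 - P.x‖ ≤ R * v
      · have h1 := norm_uu_le hv hq
        have h2 := tlM_nonneg P v R 1 q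
        have h3 : gam Γ0 v q.2 * ‖uu P.x v q.1‖ ≤ gam Γ0 v q.2 * R :=
          mul_le_mul_of_nonneg_left h1 hg
        have h4 : 0 ≤ 2 * v ^ 2 * tlM P v R 1 q := mul_nonneg hv2 h2
        linarith
      · have h4 : q ∈ {q : E m × E n | R * v < ‖q.1 - P.x‖} := not_le.1 hq
        have h5 : tlM P v R 1 q = 1 + ‖uu P.x v q.1‖ ^ 2 := by
          unfold tlM
          rw [indicator_of_mem h4, pow_one]
        rw [h5]
        have h6 := gam_le_two Γ0 v q.2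
        have h7 : ‖uu P.x v q.1‖ ≤ 1 + ‖uu P.x v q.1‖ ^ 2 := by
          nlinarith [sq_nonneg (‖uu P.x v q.1‖ - 1), norm_nonneg (uu P.x v q.1)]
        have h8 : gam Γ0 v q.2 * ‖uu P.x v q.1‖ ≤ 2 * v ^ 2 * (1 + ‖uu P.x v q.1‖ ^ 2) :=
          mul_le_mul h6 h7 (norm_nonneg _) hv2
        have h9 : 0 ≤ R * gam Γ0 v q.2 := mul_nonneg hR0 hg
        linarith
    · rw [av_add (av_int_const_mul _ ig) (av_int_const_mul _ iM), av_const_mul, av_const_mul]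
      have := mul_le_mul_of_nonneg_left hM1 hv2
      unfold PD.U
      linarith
  · refine le_trans (av_mono_nonneg hR v P.x (fun q => by positivity)
      (av_int_add (av_int_const_mul (Cq / (2 * v)) ig) (av_int_const_mul v i1)) (fun q => ?_)) ?_
    · have he := hV.e_nonneg q
      have hl := hV.lam_nonneg q
      set a := Real.sqrt (P.S.e q) with ha
      set b := Real.sqrt (P.S.lam q) with hb
      have ha2 : a ^ 2 = P.S.e q := Real.sq_sqrt he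
      have hb2 : b ^ 2 = P.S.lam q := Real.sq_sqrt hl
      set t := ‖uu P.x v q.1‖ with ht
      have ht0 : 0 ≤ t := norm_nonneg _
      set g := ‖fderiv ℝ (gam Γ0 v) q.2‖ with hg
      have h2 : g ^ 2 ≤ Cq * gam Γ0 v q.2 := hw q.2
      rw [pow_one, ← ha2, ← hb2]
      have h3 : g * t * (a + b) ≤ g ^ 2 / (2 * v) + v * (t * (a + b)) ^ 2 / 2 := by
        have h5 : g ^ 2 / (2 * v) + v * (t * (a + b)) ^ 2 / 2 - g * t * (a + b)
            = (g - v * (t * (a + b))) ^ 2 / (2 * v) := by field_simp; ring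
        have h6 : 0 ≤ (g - v * (t * (a + b))) ^ 2 / (2 * v) := by positivity
        linarith
      have h7 : g ^ 2 / (2 * v) ≤ Cq / (2 * v) * gam Γ0 v q.2 := by
        rw [div_mul_eq_mul_div]
        exact div_le_div_of_nonneg_right h2 (by positivity)
      have h8 : v * (t * (a + b)) ^ 2 / 2 ≤ v * ((1 + t ^ 2) * (a ^ 2 + b ^ 2)) := by
        have h9 : (a + b) ^ 2 ≤ 2 * (a ^ 2 + b ^ 2) := by nlinarith [sq_nonneg (a - b)]
        have h10 : (t * (a + b)) ^ 2 ≤ 2 * ((1 + t ^ 2) * (a ^ 2 + b ^ 2)) := by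
          rw [mul_pow]
          have h11 : t ^ 2 * (a + b) ^ 2 ≤ t ^ 2 * (2 * (a ^ 2 + b ^ 2)) :=
            mul_le_mul_of_nonneg_left h9 (sq_nonneg t)
          nlinarith [sq_nonneg a, sq_nonneg b]
        nlinarith
      linarith
    · rw [av_add (av_int_const_mul _ ig) (av_int_const_mul _ i1), av_const_mul, av_const_mul]
      have := mul_le_mul_of_nonneg_left ha1 hv.le
      unfold PD.U
      linarith

/-- pure arithmetic behind `horiz_err`. -/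
theorem horiz_err_num {v δ T k U γ eT Ch Cq Ca1 H1 H2 H3 M1 L tg LP A2 : ℝ}
    (hv : 0 < v) (hv1 : v ≤ 1) (hδ : 0 < δ) (hT : 1 ≤ T) (hk : 1 / T ≤ k)
    (hU : U ≤ v ^ 2 * δ / k) (hγ0 : 0 ≤ γ) (hγ : γ ≤ eT) (hCh : 0 < Ch) (hCq : 0 ≤ Cq)
    (hCa1 : 0 < Ca1) (hL0 : 0 ≤ L) (hLT : L ≤ T) (hM1 : M1 ≤ δ)
    (hH1 : H1 ≤ 2 * v ^ 2 * (Ca1 * δ)) (hH2 : H2 ≤ L * U + 2 * v ^ 2 * M1)
    (hH3 : H3 ≤ Cq / (2 * v) * U + v * (Ca1 * δ))
    (hA2 : A2 = 3 * Ca1 + 3 + Cq)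
    (hS1 : 2 * Ch * (A2 + 2) * T ^ 2 * eT ≤ LP) (hS4 : 2 * Ch * (A2 + 2) * tg ≤ LP * δ)
    (hLP : 0 ≤ LP) :
    Ch * γ * (H1 + v * H2 + v * H3) + Ch * (2 * v ^ 2) * tg ≤ LP * (v ^ 2 * δ) := by
  have hT0 : 0 < T := by linarith
  have hk0 : 0 < k := lt_of_lt_of_le (by positivity) hk
  have hX : 0 < v ^ 2 * δ := by positivity
  have hT2 : 1 ≤ T ^ 2 := one_le_pow₀ hT
  have hTT : T ≤ T ^ 2 := by nlinarith
  have hU' : U ≤ v ^ 2 * δ * T := by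
    refine hU.trans ?_
    rw [div_le_iff₀ hk0]
    have : 1 ≤ T * k := by
      rw [div_le_iff₀ hT0] at hk; linarith
    nlinarith
  have hqU : Cq / (2 * v) * U ≤ Cq * (v * δ * T) / 2 := by
    calc Cq / (2 * v) * U ≤ Cq / (2 * v) * (v ^ 2 * δ * T) :=
          mul_le_mul_of_nonneg_left hU' (by positivity)
      _ = _ := by field_simp
  have hA20 : 0 ≤ A2 := by rw [hA2]; positivity
  have heT : 0 ≤ eT := hγ0.trans hγ
  have hsum : H1 + v * H2 + v * H3 ≤ (v ^ 2 * δ) * (T ^ 2 * A2) := by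
    have h1 : H1 ≤ (v ^ 2 * δ) * (T ^ 2 * (2 * Ca1)) := by
      calc H1 ≤ (v ^ 2 * δ) * (1 * (2 * Ca1)) := by linarith
        _ ≤ _ := by gcongr
    have h2 : v * H2 ≤ (v ^ 2 * δ) * (T ^ 2 * 3) := by
      have h21 : L * U ≤ T * (v ^ 2 * δ * T) := by
        by_cases hU0 : 0 ≤ U
        · exact mul_le_mul hLT hU' hU0 hT0.le
        · have : L * U ≤ 0 := mul_nonpos_of_nonneg_of_nonpos hL0 (by linarith)
          have h22 : 0 ≤ T * (v ^ 2 * δ * T) := by positivity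
          linarith
      have h23 : 2 * v ^ 2 * M1 ≤ 2 * v ^ 2 * δ := mul_le_mul_of_nonneg_left hM1 (by positivity)
      calc v * H2 ≤ v * (T * (v ^ 2 * δ * T) + 2 * v ^ 2 * δ) :=
            mul_le_mul_of_nonneg_left (by linarith) hv.le
        _ = v * ((v ^ 2 * δ) * (T ^ 2 + 2)) := by ring
        _ ≤ 1 * ((v ^ 2 * δ) * (T ^ 2 + 2)) := by gcongr
        _ ≤ _ := by nlinarith
    have h3 : v * H3 ≤ (v ^ 2 * δ) * (T ^ 2 * (Cq + Ca1)) := by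
      calc v * H3 ≤ v * (Cq * (v * δ * T) / 2 + v * (Ca1 * δ)) :=
            mul_le_mul_of_nonneg_left (by linarith) hv.le
        _ = (v ^ 2 * δ) * (T * (Cq / 2) + 1 * Ca1) := by ring
        _ ≤ (v ^ 2 * δ) * (T ^ 2 * Cq + T ^ 2 * Ca1) := by
            gcongr
            linarith
        _ = _ := by ring
    rw [hA2]
    nlinarith
  have herr1 : Ch * γ * (H1 + v * H2 + v * H3) ≤ LP / 2 * (v ^ 2 * δ) := by
    have h0 : 0 ≤ (v ^ 2 * δ) * (T ^ 2 * A2) := by positivity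
    calc Ch * γ * (H1 + v * H2 + v * H3)
        ≤ Ch * γ * ((v ^ 2 * δ) * (T ^ 2 * A2)) := mul_le_mul_of_nonneg_left hsum (by positivity)
      _ ≤ Ch * eT * ((v ^ 2 * δ) * (T ^ 2 * A2)) := by gcongr
      _ = (2 * Ch * A2 * T ^ 2 * eT) / 2 * (v ^ 2 * δ) := by ring
      _ ≤ (2 * Ch * (A2 + 2) * T ^ 2 * eT) / 2 * (v ^ 2 * δ) := by
          gcongr
          linarith
      _ ≤ _ := by gcongr
  have herr2 : Ch * (2 * v ^ 2) * tg ≤ LP / 2 * (v ^ 2 * δ) := by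
    by_cases htg : 0 ≤ tg
    · calc Ch * (2 * v ^ 2) * tg = (2 * Ch * 2 * tg) / 2 * v ^ 2 := by ring
        _ ≤ (2 * Ch * (A2 + 2) * tg) / 2 * v ^ 2 := by
            gcongr
            linarith
        _ ≤ (LP * δ) / 2 * v ^ 2 := by gcongr
        _ = _ := by ring
    · have h1 : Ch * (2 * v ^ 2) * tg ≤ 0 :=
        mul_nonpos_of_nonneg_of_nonpos (by positivity) (by linarith)
      have h2 : 0 ≤ LP / 2 * (v ^ 2 * δ) := by positivity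
      linarith
  linarith

/-- horizontal stationarity with the multiplier `Γ_v` at a controlled scale, all errors absorbed. -/
theorem horiz_err (m n Q : ℕ) (hm : 1 ≤ m) (hQ : 1 ≤ Q) (κ Cg : ℝ) (hκ : 0 < κ)
    (K1 J Cq Pe : ℝ) (hK1 : 1 ≤ K1) (hJ : 0 ≤ J) (hCq : 0 ≤ Cq) :
    ∃ T0 : ℝ, ∀ P : PD m n Q, P.Ok κ Cg → T0 ≤ P.T → ∀ v δ, P.Ctl K1 J v δ →
      ∀ Γ0 : E n → ℝ, Continuous Γ0 → (∀ ζ, 0 ≤ gam Γ0 v ζ) → ContDiff ℝ 1 (gam Γ0 v) →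
      (∀ ζ, ‖fderiv ℝ (gam Γ0 v) ζ‖ ^ 2 ≤ Cq * gam Γ0 v ζ) →
      ∀ k : ℝ, 1 / P.T ≤ k → k ≤ 1 → P.U Γ0 v ≤ v ^ 2 * δ / k →
      |(∫ q, kerDot P.χ v P.x q.1 * gam Γ0 v q.2 ∂P.S.μ)
          - P.S.avg P.χ v P.x (fun q => gam Γ0 v q.2
              * (⟪P.S.B q (uu P.x v q.1), uu P.x v q.1⟫_ℝ - P.S.e q))
          - v * P.S.avg P.χ v P.x (fun q => fderiv ℝ (gam Γ0 v) q.2 (P.S.Pvh q (uu P.x v q.1)))|
        ≤ lev δ ^ (-Pe) * (v ^ 2 * δ) := by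
  obtain ⟨Ch, hCh, hgh⟩ := gauss_horiz m n Cg
  obtain ⟨K0, Tc, hchart⟩ := PD.chart m n Q κ Cg
  obtain ⟨Ca1, T1, hCa1, ha1⟩ := ctl_avgE m n Q hm hQ κ Cg K1 J hK1 hJ 1
  obtain ⟨Cm, c, T2, hCm, hc, hmass⟩ := ctl_mass m n Q hm hQ κ Cg K1 J hK1 hJ 1
  obtain ⟨T3, hsm⟩ := ctl_smalls m n Q hQ κ K1
    (2 * Ch * ((3 * Ca1 + 3 + Cq) + 2)) 2 Pe 1 1 K0 1 hκ hK1 one_pos one_pos
  obtain ⟨T4, hsm'⟩ := ctl_smalls m n Q hQ κ K1 Cm 1 0 c 1 0 1 hκ hK1 hc one_pos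
  refine ⟨max (max Tc T1) (max T2 (max T3 T4)), fun P hP hT v δ h Γ0 hc0 h0 hf1 hw k hk hk1 hU => ?_⟩
  have hTc : Tc ≤ P.T := le_trans (by simp) hT
  have hT1 : T1 ≤ P.T := le_trans (by simp) hT
  have hT2 : T2 ≤ P.T := le_trans (by simp) hT
  have hT3 : T3 ≤ P.T := le_trans (by simp) hT
  have hT4 : T4 ≤ P.T := le_trans (by simp) hT
  obtain ⟨hTt, -, hρ1, hl2, -, hS1, -, -, hS4⟩ := hsm P hT3 J v δ h
  obtain ⟨-, -, -, -, -, -, hS2, -, -⟩ := hsm' P hT4 J v δ h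
  have hR := hP.root
  have hv := h.v_pos
  have hv1 : v ≤ 1 := by
    have h5 : (1 : ℝ) ≤ P.T ^ 4 := one_le_pow₀ (by linarith)
    have := h.mul_le (t := 1) h5
    linarith
  have hF0 : ∀ ζ, |gam Γ0 v ζ| ≤ 2 * v ^ 2 := fun ζ => by
    rw [abs_of_nonneg (h0 ζ)]; exact gam_le_two Γ0 v ζ
  have hg := hgh P.S hR.hyp.valid hR.hyp.Cg_le P.χ 0 P.x 2 1 1 K0 v (hchart P hP hTc) hv hv1
    (gam Γ0 v) (2 * v ^ 2) hf1 hF0
  have hM := (hmass P hP hT2 v δ h).2 (lev δ) (by linarith)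
  have hM' : P.S.avg P.χ v P.x (tlM P v (lev δ) 1) ≤ Cm * Real.exp (-c * lev δ ^ 2) := hM
  obtain ⟨hH1, hH2, hH3⟩ := horiz_err_avg hP hv (by linarith : (0 : ℝ) ≤ lev δ) hc0 h0 hw
    (ha1 P hP hT1 v δ h) hM'
  refine hg.trans ?_
  rw [neg_zero, Real.rpow_zero, one_mul] at hS2
  rw [Real.rpow_two] at hS1
  have hLP : 0 ≤ lev δ ^ (-Pe) := Real.rpow_nonneg (by linarith) _
  have hlT := h.lev_le
  exact horiz_err_num hv hv1 h.δ_pos (by linarith) hk hU hR.hyp.valid.γ_nonneg hR.hyp.geom hCh hCq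
    hCa1 (by linarith) (by linarith) hS2 hH1 hH2 hH3 rfl hS1 hS4 hLP

/-! ### the remaining terms -/

/-- Lemma C: the Hessian term. -/
theorem hess_avg_le (m n Q : ℕ) (hm : 1 ≤ m) (hQ : 1 ≤ Q) (κ Cg : ℝ) (hκ : 0 < κ)
    (F : Fix m n Q Cg) (K1 J Cw cp C' Pe : ℝ) (hK1 : 1 ≤ K1) (hJ : 0 ≤ J) (hCw : 1 ≤ Cw)
    (hcp : 0 < cp) (hcp' : cp ≤ 1 / 4) (hC' : 1 ≤ C') :
    ∃ T0 : ℝ, ∀ P : PD m n Q, P.Ok κ Cg → T0 ≤ P.T → ∀ v δ, P.Ctl K1 J v δ →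
      ∀ (W : Finset (E n)) (Γ0 : E n → ℝ), W.Nonempty → WellFn W Cw cp Γ0 → GamOk Γ0 C' →
      ∀ k : ℝ, 1 / P.T ≤ k → k ≤ 1 → P.U Γ0 v ≤ v ^ 2 * δ / k →
      P.S.avg P.χ v P.x (fun q => tr (P.S.Pvv q ∘L fderiv ℝ (gradF (gam Γ0 v)) q.2))
        ≤ 2 * P.Dv v + (n * C' + 2) * P.Dtr W (cp / 2) v + lev δ ^ (-Pe) * δ := by
  obtain ⟨T2, hrl⟩ := rough_lt m n Q hm hQ κ Cg hκ F K1 J Cw cp (cp / 2) hK1 hJ hCw (by linarith)
  obtain ⟨Ct, c, T3, hCt, hc, htl⟩ := ctl_avgE_tail m n Q hm hQ κ Cg K1 J hK1 hJ 0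
  have hn0 : (0 : ℝ) ≤ n := Nat.cast_nonneg n
  obtain ⟨T4, hsm⟩ := ctl_smalls m n Q hQ κ K1 ((n * C' + 2) * Ct) 1 Pe c 1 0 1 hκ hK1 hc one_pos
  refine ⟨max T2 (max T3 T4), fun P hP hT v δ h W Γ0 hW hΓ hG k hk hk1 hU => ?_⟩
  have hT2 : T2 ≤ P.T := le_trans (by simp) hT
  have hT3 : T3 ≤ P.T := le_trans (by simp) hT
  have hT4 : T4 ≤ P.T := le_trans (by simp) hT
  obtain ⟨-, -, -, hl2, -, -, hS2, -, -⟩ := hsm P hT4 J v δ h
  have hS := hP.root.hyp.valid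
  have hv := h.v_pos
  have hδ := h.δ_pos
  have hf2 := hG.smooth v hv
  have h2 := pure_avg (a0 := 2) (c0 := n * C') (R := lev δ) (cv := cp / 2) hP hv W
    (av_meas_tr_Pvv hS ((gradF_contDiff hf2).continuous_fderiv one_ne_zero)) (by positivity)
    (fun q => av_tr_Pvv_le hS q _ ((gradF_fderiv_norm_le hf2 q.2).trans (hG.hess v q.2 hv)))
    (fun q hq hd => tr_Pvv_hess hS hf2 q q.2 (fun ξ η =>
      gam_hess_pure hΓ (by linarith) hv (nearSet_mono W (by linarith) hq)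
        (hd.trans_le (by nlinarith)) ξ η))
    (hrl P hP hT2 v δ h W Γ0 hW hΓ k hk hk1 hU)
  have h3 : P.S.avg P.χ v P.x (tlE P v (lev δ) 0) ≤ Ct * Real.exp (-c * lev δ ^ 2) * δ :=
    htl P hP hT3 v δ h (lev δ) (by linarith)
  have hδ1 : δ ≤ 1 := by
    rw [← h.exp_neg_lev]
    exact Real.exp_le_one_iff.2 (by linarith)
  have hLP : 0 < lev δ ^ (-Pe) := Real.rpow_pos_of_pos (by linarith) _
  have h5 := (abs_le.1 h2).2
  rw [abs_of_nonneg (by norm_num : (0 : ℝ) ≤ 2)] at h5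
  generalize P.S.avg P.χ v P.x (fun q => tr (P.S.Pvv q ∘L fderiv ℝ (gradF (gam Γ0 v)) q.2)) = NN at *
  generalize P.S.avg P.χ v P.x (tlE P v (lev δ) 0) = Tl at *
  generalize lev δ ^ (-Pe) = LP at *
  generalize Real.exp (-c * lev δ ^ 2) = ee at *
  have hc1 : 0 < (n : ℝ) * C' + 2 := by positivity
  have h6 : ((n : ℝ) * C' + 2) * Tl ≤ LP * δ := by
    calc ((n : ℝ) * C' + 2) * Tl ≤ ((n : ℝ) * C' + 2) * (Ct * ee * δ) :=
          mul_le_mul_of_nonneg_left h3 hc1.le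
      _ = (((n : ℝ) * C' + 2) * Ct * ee) * δ := by ring
      _ ≤ (LP * δ) * δ := by gcongr
      _ ≤ (LP * 1) * δ := by gcongr
      _ = _ := by ring
  linarith

/-- Lemma D: the term `∫ G Γ (B[u,u] - e)`. -/
theorem gamB_avg_le (m n Q : ℕ) (hm : 1 ≤ m) (hQ : 1 ≤ Q) (κ Cg : ℝ) (hκ : 0 < κ)
    (F : Fix m n Q Cg) (K1 J Cw cp C' Pe : ℝ) (hK1 : 1 ≤ K1) (hJ : 0 ≤ J) (hCw : 1 ≤ Cw) :
    ∃ T0 : ℝ, ∀ P : PD m n Q, P.Ok κ Cg → T0 ≤ P.T → ∀ v δ, P.Ctl K1 J v δ →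
      ∀ (W : Finset (E n)) (Γ0 : E n → ℝ), W.Nonempty → WellFn W Cw cp Γ0 → GamOk Γ0 C' →
      ∀ k : ℝ, 1 / P.T ≤ k → k ≤ 1 → P.U Γ0 v ≤ v ^ 2 * δ / k →
      P.S.avg P.χ v P.x (fun q => gam Γ0 v q.2
          * (⟪P.S.B q (uu P.x v q.1), uu P.x v q.1⟫_ℝ - P.S.e q))
        ≤ lev δ ^ (-Pe) * (v ^ 2 * δ) := by
  obtain ⟨Ce, γ', T1, hCe, hγ', hr⟩ := rough_height m n Q hm hQ κ Cg F K1 J 1 Cw cp hK1 hJ le_rfl hCw
  obtain ⟨Ca1, T2, hCa1, ha1⟩ := ctl_avgE m n Q hm hQ κ Cg K1 J hK1 hJ 1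
  obtain ⟨Ct, c, T3, hCt, hc, htl⟩ := ctl_avgE_tail m n Q hm hQ κ Cg K1 J hK1 hJ 1
  obtain ⟨T4, hsm⟩ := ctl_smalls m n Q hQ κ K1 (2 * (Cw * Ca1) + 4 * Ct) 1 Pe c γ' 0 1 hκ hK1 hc hγ'
  refine ⟨max (max T1 T2) (max T3 T4), fun P hP hT v δ h W Γ0 hW hΓ hG k hk hk1 hU => ?_⟩
  have hT1 : T1 ≤ P.T := le_trans (by simp) hT
  have hT2 : T2 ≤ P.T := le_trans (by simp) hT
  have hT3 : T3 ≤ P.T := le_trans (by simp) hT
  have hT4 : T4 ≤ P.T := le_trans (by simp) hT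
  obtain ⟨-, -, -, hl2, -, -, hS2, hS3, -⟩ := hsm P hT4 J v δ h
  have hR := hP.root
  have hS := hR.hyp.valid
  have hv := h.v_pos
  have hδ := h.δ_pos
  have hrough := (hr P hP hT1 v δ h W Γ0 hW hΓ k hk hk1 hU).2
  have hδ1 : δ ≤ 1 := by
    rw [← h.exp_neg_lev]
    exact Real.exp_le_one_iff.2 (by linarith)
  set ε : ℝ := δ ^ γ' with hε
  have hε0 : 0 ≤ ε := Real.rpow_nonneg hδ.le _
  have hε1 : ε ≤ 1 := Real.rpow_le_one hδ.le hδ1 hγ'.le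
  have i1 := av_int_E hR hv P.x 1
  have iT := av_int_tlE hP hv (lev δ) 1
  have hc0 := hΓ.smooth.continuous
  have iL : Integrable (fun q => Sys.ker P.χ v P.x q.1 * (gam Γ0 v q.2
      * (⟪P.S.B q (uu P.x v q.1), uu P.x v q.1⟫_ℝ - P.S.e q))) P.S.μ := by
    refine av_int hR hv P.x (((gam_continuous hc0 v).measurable.comp measurable_snd).mul
      ((av_meas_B_uu hS P.x v).sub hS.meas_e)) (2 * v ^ 2 * (m + 1)) 1 (fun q => ?_)
    rw [abs_mul, abs_of_nonneg (hG.nonneg v q.2 hv), pow_one]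
    have h1 := gam_le_two Γ0 v q.2
    have h2 := hS.B_nonneg q (uu P.x v q.1)
    have h3 := hS.B_le q (uu P.x v q.1)
    have h4 := hS.e_nonneg q
    have h5 := hS.e_le q
    have hm0 : (0 : ℝ) ≤ m := Nat.cast_nonneg m
    have h6 : |⟪P.S.B q (uu P.x v q.1), uu P.x v q.1⟫_ℝ - P.S.e q|
        ≤ (m + 1) * (1 + ‖uu P.x v q.1‖ ^ 2) := by
      rw [abs_le]
      constructor <;> nlinarith [sq_nonneg ‖uu P.x v q.1‖]
    calc gam Γ0 v q.2 * |⟪P.S.B q (uu P.x v q.1), uu P.x v q.1⟫_ℝ - P.S.e q|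
        ≤ 2 * v ^ 2 * ((m + 1) * (1 + ‖uu P.x v q.1‖ ^ 2)) :=
          mul_le_mul h1 h6 (abs_nonneg _) (by positivity)
      _ = _ := by ring
  have hmain : P.S.avg P.χ v P.x (fun q => gam Γ0 v q.2
          * (⟪P.S.B q (uu P.x v q.1), uu P.x v q.1⟫_ℝ - P.S.e q))
      ≤ P.S.avg P.χ v P.x (fun q => Cw * v ^ 2 * ε
            * ((1 + ‖uu P.x v q.1‖ ^ 2) ^ 1 * (P.S.e q + P.S.lam q))
          + 2 * v ^ 2 * tlE P v (lev δ) 1 q) := by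
    refine av_mono hR v P.x iL (av_int_add (av_int_const_mul _ i1) (av_int_const_mul _ iT)) ?_
    filter_upwards [P.S.ae_mem_spt] with q hq
    have he := hS.e_nonneg q
    have hl := hS.lam_nonneg q
    have hg0 := hG.nonneg v q.2 hv
    set Y : ℝ := (1 + ‖uu P.x v q.1‖ ^ 2) ^ 1 * (P.S.e q + P.S.lam q) with hY
    have hY0 : 0 ≤ Y := by positivity
    have hBY : ⟪P.S.B q (uu P.x v q.1), uu P.x v q.1⟫_ℝ - P.S.e q ≤ Y := by
      have h1 : ⟪P.S.B q (uu P.x v q.1), uu P.x v q.1⟫_ℝ ≤ P.S.e q * ‖uu P.x v q.1‖ ^ 2 :=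
        psd_inner_le_tr (hS.B_nonneg q) _
      rw [hY, pow_one]
      nlinarith [sq_nonneg ‖uu P.x v q.1‖]
    have h1 : gam Γ0 v q.2 * (⟪P.S.B q (uu P.x v q.1), uu P.x v q.1⟫_ℝ - P.S.e q)
        ≤ gam Γ0 v q.2 * Y := mul_le_mul_of_nonneg_left hBY hg0
    refine h1.trans ?_
    by_cases hb : ‖q.1 - P.x‖ ≤ lev δ * v
    · have h2 := hrough q hq hb
      have h3 : gam Γ0 v q.2 ≤ Cw * v ^ 2 * ε := by
        refine (hG.le v q.2 hv).trans ((hΓ.upper q.2).trans ?_)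
        have h4 : infDist q.2 (W : Set (E n)) ^ 2 ≤ (v * ε) ^ 2 :=
          pow_le_pow_left₀ infDist_nonneg h2 2
        have h5 : (v * ε) ^ 2 ≤ v ^ 2 * ε := by
          rw [mul_pow]
          apply mul_le_mul_of_nonneg_left _ (sq_nonneg v)
          nlinarith
        calc Cw * infDist q.2 (W : Set (E n)) ^ 2 ≤ Cw * (v ^ 2 * ε) :=
              mul_le_mul_of_nonneg_left (h4.trans h5) (by linarith)
          _ = _ := by ring
      have h6 := tlE_nonneg hP v (lev δ) 1 q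
      have h7 : gam Γ0 v q.2 * Y ≤ Cw * v ^ 2 * ε * Y := mul_le_mul_of_nonneg_right h3 hY0
      have h8 : 0 ≤ 2 * v ^ 2 * tlE P v (lev δ) 1 q := by positivity
      linarith
    · have h4 : q ∈ {q : E m × E n | lev δ * v < ‖q.1 - P.x‖} := not_le.1 hb
      have h5 : tlE P v (lev δ) 1 q = Y := by
        unfold tlE
        rw [indicator_of_mem h4]
      rw [h5]
      have h6 : gam Γ0 v q.2 * Y ≤ 2 * v ^ 2 * Y :=
        mul_le_mul_of_nonneg_right (gam_le_two Γ0 v q.2) hY0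
      have h7 : 0 ≤ Cw * v ^ 2 * ε * Y := by positivity
      linarith
  refine hmain.trans ?_
  rw [av_add (av_int_const_mul _ i1) (av_int_const_mul _ iT), av_const_mul, av_const_mul]
  have h1 := ha1 P hP hT2 v δ h
  have h3 : P.S.avg P.χ v P.x (tlE P v (lev δ) 1) ≤ Ct * Real.exp (-c * lev δ ^ 2) * δ :=
    htl P hP hT3 v δ h (lev δ) (by linarith)
  have hLP : 0 < lev δ ^ (-Pe) := Real.rpow_pos_of_pos (by linarith) _
  generalize P.S.avg P.χ v P.x (fun q => (1 + ‖uu P.x v q.1‖ ^ 2) ^ 1 * (P.S.e q + P.S.lam q)) = Y1 at *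
  generalize P.S.avg P.χ v P.x (tlE P v (lev δ) 1) = Tl at *
  generalize lev δ ^ (-Pe) = LP at *
  have hee : 0 < Real.exp (-c * lev δ ^ 2) := Real.exp_pos _
  generalize Real.exp (-c * lev δ ^ 2) = ee at *
  have hv2 : 0 < v ^ 2 := by positivity
  have hA1 : 2 * (Cw * Ca1) * ε ≤ LP := by
    refine le_trans ?_ hS3
    apply mul_le_mul_of_nonneg_right _ hε0
    linarith
  have hA2 : 4 * Ct * ee ≤ LP := by
    have h9 : 4 * Ct * ee ≤ (2 * (Cw * Ca1) + 4 * Ct) * ee := by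
      apply mul_le_mul_of_nonneg_right _ hee.le
      have : 0 ≤ Cw * Ca1 := by positivity
      linarith
    have h10 : LP * δ ≤ LP * 1 := mul_le_mul_of_nonneg_left hδ1 hLP.le
    linarith
  have hB1 : Cw * v ^ 2 * ε * Y1 ≤ LP / 2 * (v ^ 2 * δ) := by
    calc Cw * v ^ 2 * ε * Y1 ≤ Cw * v ^ 2 * ε * (Ca1 * δ) :=
          mul_le_mul_of_nonneg_left h1 (by positivity)
      _ = (2 * (Cw * Ca1) * ε) / 2 * (v ^ 2 * δ) := by ring
      _ ≤ _ := by gcongr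
  have hB2 : 2 * v ^ 2 * Tl ≤ LP / 2 * (v ^ 2 * δ) := by
    calc 2 * v ^ 2 * Tl ≤ 2 * v ^ 2 * (Ct * ee * δ) := mul_le_mul_of_nonneg_left h3 (by positivity)
      _ = (4 * Ct * ee) / 2 * (v ^ 2 * δ) := by ring
      _ ≤ _ := by gcongr
  linarith

/-- Lemma E: the clipping term `∫ G dΓ_s/d log s`. -/
theorem gamDot_avg_le (m n Q : ℕ) (hm : 1 ≤ m) (hQ : 1 ≤ Q) (κ Cg : ℝ) (hκ : 0 < κ)
    (F : Fix m n Q Cg) (K1 J Cw cp C' Pe : ℝ) (hK1 : 1 ≤ K1) (hJ : 0 ≤ J) (hCw : 1 ≤ Cw)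
    (hC' : 1 ≤ C') :
    ∃ T0 : ℝ, ∀ P : PD m n Q, P.Ok κ Cg → T0 ≤ P.T → ∀ v δ, P.Ctl K1 J v δ →
      ∀ (W : Finset (E n)) (Γ0 : E n → ℝ), W.Nonempty → WellFn W Cw cp Γ0 → GamOk Γ0 C' →
      ∀ k : ℝ, 1 / P.T ≤ k → k ≤ 1 → P.U Γ0 v ≤ v ^ 2 * δ / k →
      P.S.avg P.χ v P.x (fun q => gamDot Γ0 v q.2) ≤ lev δ ^ (-Pe) * (v ^ 2 * δ) := by
  have hcw : (0 : ℝ) < 1 / Cw := by positivity
  obtain ⟨T1, hrl⟩ := rough_lt m n Q hm hQ κ Cg hκ F K1 J Cw cp (1 / Cw) hK1 hJ hCw hcw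
  obtain ⟨Cm, c, T2, hCm, hc, hmass⟩ := ctl_mass m n Q hm hQ κ Cg K1 J hK1 hJ 0
  obtain ⟨T4, hsm⟩ := ctl_smalls m n Q hQ κ K1 (C' * Cm) 1 Pe c 1 0 1 hκ hK1 hc one_pos
  refine ⟨max T1 (max T2 T4), fun P hP hT v δ h W Γ0 hW hΓ hG k hk hk1 hU => ?_⟩
  have hT1 : T1 ≤ P.T := le_trans (by simp) hT
  have hT2 : T2 ≤ P.T := le_trans (by simp) hT
  have hT4 : T4 ≤ P.T := le_trans (by simp) hT
  obtain ⟨-, -, -, hl2, -, -, hS2, -, -⟩ := hsm P hT4 J v δ h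
  have hR := hP.root
  have hv := h.v_pos
  have hδ := h.δ_pos
  have hrough := hrl P hP hT1 v δ h W Γ0 hW hΓ k hk hk1 hU
  have hc0 := hΓ.smooth.continuous
  have iM := av_int_tlM hP hv (lev δ) 0
  have iL : Integrable (fun q => Sys.ker P.χ v P.x q.1 * gamDot Γ0 v q.2) P.S.μ := by
    refine av_int hR hv P.x ((gamDot_continuous hc0 v).measurable.comp measurable_snd)
      (C' * v ^ 2) 0 (fun q => ?_)
    rw [pow_zero, mul_one]
    exact hG.dot_le v q.2 hv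
  have hmain : P.S.avg P.χ v P.x (fun q => gamDot Γ0 v q.2)
      ≤ P.S.avg P.χ v P.x (fun q => C' * v ^ 2 * tlM P v (lev δ) 0 q) := by
    refine av_mono hR v P.x iL (av_int_const_mul _ iM) ?_
    filter_upwards [P.S.ae_mem_spt] with q hq
    by_cases hb : ‖q.1 - P.x‖ ≤ lev δ * v
    · have h2 := hrough q hq hb
      have h3 : Γ0 q.2 ≤ v ^ 2 := by
        refine (hΓ.upper q.2).trans ?_
        have h4 : infDist q.2 (W : Set (E n)) ^ 2 ≤ (1 / Cw * v) ^ 2 :=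
          pow_le_pow_left₀ infDist_nonneg h2.le 2
        have h5 : Cw * (1 / Cw * v) ^ 2 = v ^ 2 / Cw := by field_simp
        have h6 : v ^ 2 / Cw ≤ v ^ 2 := div_le_self (sq_nonneg v) hCw
        calc Cw * infDist q.2 (W : Set (E n)) ^ 2 ≤ Cw * (1 / Cw * v) ^ 2 :=
              mul_le_mul_of_nonneg_left h4 (by linarith)
          _ ≤ v ^ 2 := by rw [h5]; exact h6
      rw [hG.dot_zero v q.2 hv h3]
      have := tlM_nonneg P v (lev δ) 0 q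
      positivity
    · have h4 : q ∈ {q : E m × E n | lev δ * v < ‖q.1 - P.x‖} := not_le.1 hb
      have h5 : tlM P v (lev δ) 0 q = 1 := by
        unfold tlM
        rw [indicator_of_mem h4, pow_zero]
      rw [h5, mul_one]
      exact (le_abs_self _).trans (hG.dot_le v q.2 hv)
  refine hmain.trans ?_
  rw [av_const_mul]
  have hM : P.S.avg P.χ v P.x (tlM P v (lev δ) 0) ≤ Cm * Real.exp (-c * lev δ ^ 2) :=
    (hmass P hP hT2 v δ h).2 (lev δ) (by linarith)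
  calc C' * v ^ 2 * P.S.avg P.χ v P.x (tlM P v (lev δ) 0)
      ≤ C' * v ^ 2 * (Cm * Real.exp (-c * lev δ ^ 2)) :=
        mul_le_mul_of_nonneg_left hM (by positivity)
    _ = (C' * Cm * Real.exp (-c * lev δ ^ 2)) * v ^ 2 := by ring
    _ ≤ (lev δ ^ (-Pe) * δ) * v ^ 2 := mul_le_mul_of_nonneg_right hS2 (sq_nonneg v)
    _ = _ := by ring

/-- **AE (5.13).** -/
theorem moment_deriv (m n Q : ℕ) (hm : 1 ≤ m) (hQ : 1 ≤ Q) (κ Cg : ℝ) (hκ : 0 < κ)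
    (F : Fix m n Q Cg) (K1 J Cw cp Pe : ℝ) (hK1 : 1 ≤ K1) (hJ : 0 ≤ J) (hCw : 1 ≤ Cw)
    (hcp : 0 < cp) (hcp' : cp ≤ 1 / 4) :
    ∃ C T0 : ℝ, 0 < C ∧ ∀ P : PD m n Q, P.Ok κ Cg → T0 ≤ P.T → ∀ v δ, P.Ctl K1 J v δ →
      ∀ (W : Finset (E n)) (Γ0 : E n → ℝ), W.Nonempty → WellFn W Cw cp Γ0 →
      ∀ k : ℝ, 1 / P.T ≤ k → k ≤ 1 → P.U Γ0 v ≤ v ^ 2 * δ / k →
      P.Udot Γ0 v
        ≤ 2 * (v ^ 2 * P.Dv v) + C * v ^ 2 * P.Dtr W (cp / 2) v + lev δ ^ (-Pe) * (v ^ 2 * δ) := by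
  obtain ⟨C', hC', hgam⟩ := gamOk n Cw cp hCw
  have hC'0 : (0 : ℝ) ≤ C' := by linarith
  obtain ⟨TA, hA⟩ := horiz_err m n Q hm hQ κ Cg hκ K1 J C' (Pe + 3) hK1 hJ hC'0
  obtain ⟨TB, hB⟩ := normal_err m n Q hm hQ κ Cg hκ K1 J C' C' (Pe + 3) hK1 hJ hC'0 hC'0
  obtain ⟨TC, hCc⟩ := hess_avg_le m n Q hm hQ κ Cg hκ F K1 J Cw cp C' (Pe + 3) hK1 hJ hCw hcp hcp' hC'
  obtain ⟨TD, hD⟩ := gamB_avg_le m n Q hm hQ κ Cg hκ F K1 J Cw cp C' (Pe + 3) hK1 hJ hCw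
  obtain ⟨TE, hE⟩ := gamDot_avg_le m n Q hm hQ κ Cg hκ F K1 J Cw cp C' (Pe + 3) hK1 hJ hCw hC'
  obtain ⟨TS, hsm⟩ := ctl_small m n Q hQ K1 0 0 1 1 hK1 one_pos
  have hn0 : (0 : ℝ) ≤ n := Nat.cast_nonneg n
  refine ⟨n * C' + 2, max (max TA TB) (max (max TC TD) (max TE TS)), by positivity,
    fun P hP hT v δ h W Γ0 hW hΓ k hk hk1 hU => ?_⟩
  have hTA : TA ≤ P.T := le_trans (by simp) hT
  have hTB : TB ≤ P.T := le_trans (by simp) hT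
  have hTC : TC ≤ P.T := le_trans (by simp) hT
  have hTD : TD ≤ P.T := le_trans (by simp) hT
  have hTE : TE ≤ P.T := le_trans (by simp) hT
  have hTS : TS ≤ P.T := le_trans (by simp) hT
  obtain ⟨-, -, -, hl2, -, -⟩ := hsm P hTS J v δ h
  have hG := hgam W Γ0 hΓ
  have hv := h.v_pos
  have hδ := h.δ_pos
  have hc0 := hΓ.smooth.continuous
  have hf2 := hG.smooth v hv
  have hg0 : ∀ ζ, 0 ≤ gam Γ0 v ζ := fun ζ => hG.nonneg v ζ hv
  have a := hA P hP hTA v δ h Γ0 hc0 hg0 (hf2.of_le (by norm_num)) (fun ζ => hG.grad v ζ hv)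
    k hk hk1 hU
  have b := hB P hP hTB v δ h Γ0 (gradF (gam Γ0 v)) hc0 hg0 (gradF_contDiff hf2)
    (fun ζ => by rw [gradF_norm]; exact hG.grad v ζ hv)
    (fun ζ => (gradF_fderiv_norm_le hf2 ζ).trans (hG.hess v ζ hv)) k hk hk1 hU
  have c := hCc P hP hTC v δ h W Γ0 hW hΓ hG k hk hk1 hU
  have d := hD P hP hTD v δ h W Γ0 hW hΓ hG k hk hk1 hU
  have e := hE P hP hTE v δ h W Γ0 hW hΓ hG k hk hk1 hU
  have hfw : (fun q : E m × E n => ⟪gradF (gam Γ0 v) q.2, P.S.Pvh q (uu P.x v q.1)⟫_ℝ)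
      = fun q => fderiv ℝ (gam Γ0 v) q.2 (P.S.Pvh q (uu P.x v q.1)) := by
    funext q; exact gradF_inner _ _ _
  rw [hfw] at b
  have hLP : 0 < lev δ ^ (-Pe) := Real.rpow_pos_of_pos (by linarith) _
  have hLP3 : 8 * lev δ ^ (-(Pe + 3)) ≤ lev δ ^ (-Pe) := by
    have e' : -(Pe + 3) = -Pe + -3 := by ring
    have h3 : lev δ ^ (-3 : ℝ) ≤ 1 / 8 := by
      have h4 : lev δ ^ (-3 : ℝ) = (lev δ ^ 3)⁻¹ := by
        rw [Real.rpow_neg (by linarith)]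
        congr 1
        exact_mod_cast Real.rpow_natCast (lev δ) 3
      rw [h4, ← one_div]
      apply one_div_le_one_div_of_le (by norm_num)
      have : (2 : ℝ) ^ 3 ≤ lev δ ^ 3 := pow_le_pow_left₀ (by norm_num) hl2 3
      linarith
    rw [e', Real.rpow_add (by linarith)]
    nlinarith
  have a' := (abs_le.1 a).2
  have b' := (abs_le.1 b).2
  unfold PD.Udot
  generalize (∫ q, kerDot P.χ v P.x q.1 * gam Γ0 v q.2 ∂P.S.μ) = I0 at *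
  generalize P.S.avg P.χ v P.x (fun q => gam Γ0 v q.2
      * (⟪P.S.B q (uu P.x v q.1), uu P.x v q.1⟫_ℝ - P.S.e q)) = G1 at *
  generalize P.S.avg P.χ v P.x (fun q => fderiv ℝ (gam Γ0 v) q.2 (P.S.Pvh q (uu P.x v q.1))) = Fw at *
  generalize P.S.avg P.χ v P.x (fun q => tr (P.S.Pvv q ∘L fderiv ℝ (gradF (gam Γ0 v)) q.2)) = NN at *
  generalize P.S.avg P.χ v P.x (fun q => gamDot Γ0 v q.2) = G2 at *
  generalize lev δ ^ (-(Pe + 3)) = L3 at *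
  generalize lev δ ^ (-Pe) = LP at *
  have hv2 : 0 < v ^ 2 := by positivity
  have c' : v ^ 2 * NN ≤ v ^ 2 * (2 * P.Dv v + (n * C' + 2) * P.Dtr W (cp / 2) v + L3 * δ) :=
    mul_le_mul_of_nonneg_left c hv2.le
  have hX : 0 < v ^ 2 * δ := by positivity
  have h8 : 8 * L3 * (v ^ 2 * δ) ≤ LP * (v ^ 2 * δ) := mul_le_mul_of_nonneg_right hLP3 hX.le
  have hL3 : 0 ≤ L3 * (v ^ 2 * δ) := by
    have := (abs_nonneg _).trans a
    exact this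
  nlinarith

end Claimed.Agent.R322.Sx
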