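import Claimed.Agent.R322.Sx.Moment.Normal

/-!
# R322 / Sx / Moment / Flux : package Moment-B (the normal flux, AE (5.14))
-/

set_option autoImplicit false

namespace Claimed.Agent.R322.Sx

open MeasureTheory Set Metric Filter Topology
open scoped ENNReal NNReal InnerProductSpace

variable {m n Q : ℕ}

theorem Pvh_uu_sq_le {S : Sys m n} (hV : S.Valid) (q : E m × E n) (u : E m) :
    ‖S.Pvh q u‖ ^ 2 ≤ ‖u‖ ^ 2 := (hV.Pvh_sq_le q u).trans (hV.B_le q u)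

section

variable {κ Cg Cv cv : ℝ} {P : PD m n Q} {v : ℝ} {W : Finset (E n)} {Γ0 : E n → ℝ} {V : E n → E n}

theorem flux_int1 (h : P.Ok κ Cg) (hv : 0 < v) (hV : WellVec W Cv cv v Γ0 V) :
    Integrable (fun q => Sys.ker P.χ v P.x q.1 * ⟪V q.2, P.S.Pvh q (uu P.x v q.1)⟫_ℝ) P.S.μ := by
  have hS := h.root.hyp.valid
  refine av_int h.root hv P.x
    ((hV.smooth.continuous.measurable.comp measurable_snd).inner (av_meas_Pvh_uu hS P.x v))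
    (v ^ 2 + 1) 1 (fun q => ?_)
  have h1 := abs_real_inner_le_norm (V q.2) (P.S.Pvh q (uu P.x v q.1))
  have h2 := Pvh_uu_sq_le hS q (uu P.x v q.1)
  have h3 := (hV.sq_le q.2).trans (gam_le_two Γ0 v q.2)
  have h4 : ‖V q.2‖ * ‖P.S.Pvh q (uu P.x v q.1)‖
      ≤ (‖V q.2‖ ^ 2 + ‖P.S.Pvh q (uu P.x v q.1)‖ ^ 2) / 2 := by
    nlinarith [sq_nonneg (‖V q.2‖ - ‖P.S.Pvh q (uu P.x v q.1)‖)]
  have h5 := sq_nonneg ‖uu P.x v q.1‖
  have h6 := sq_nonneg v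
  rw [pow_one]
  nlinarith

theorem flux_int2 (h : P.Ok κ Cg) (hv : 0 < v) (hc : Continuous Γ0) (hV : WellVec W Cv cv v Γ0 V) :
    Integrable (fun q => Sys.ker P.χ v P.x q.1 * gam Γ0 v q.2) P.S.μ := by
  refine av_int h.root hv P.x ((gam_continuous hc v).measurable.comp measurable_snd)
    (2 * v ^ 2) 0 (fun q => ?_)
  have h0 : 0 ≤ gam Γ0 v q.2 := (sq_nonneg _).trans (hV.sq_le q.2)
  rw [abs_of_nonneg h0, pow_zero, mul_one]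
  exact gam_le_two Γ0 v q.2

theorem flux_int3 (h : P.Ok κ Cg) (hv : 0 < v) :
    Integrable (fun q => Sys.ker P.χ v P.x q.1
      * ⟪P.S.B q (uu P.x v q.1), uu P.x v q.1⟫_ℝ) P.S.μ := by
  have hS := h.root.hyp.valid
  refine av_int h.root hv P.x (av_meas_B_uu hS P.x v) 1 1 (fun q => ?_)
  rw [abs_of_nonneg (hS.B_nonneg q _), pow_one, one_mul]
  have := hS.B_le q (uu P.x v q.1)
  linarith

end

/-- square completion: `s² R_s ≥ 4 k · flux - 4 k² U`. -/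
theorem flux_square {κ Cg Cv cv : ℝ} (P : PD m n Q) (h : P.Ok κ Cg) {v : ℝ} (hv : 0 < v)
    {W : Finset (E n)} {Γ0 : E n → ℝ} {V : E n → E n} (hc : Continuous Γ0)
    (hV : WellVec W Cv cv v Γ0 V) (k : ℝ) :
    4 * k * P.flux V v - 4 * k ^ 2 * P.U Γ0 v ≤ v ^ 2 * P.Rv v := by
  have hS := h.root.hyp.valid
  have i1 := flux_int1 h hv hV
  have i2 := flux_int2 h hv hc hV
  have i3 := flux_int3 h hv
  have e1 : 4 * k * P.flux V v - 4 * k ^ 2 * P.U Γ0 v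
      = P.S.avg P.χ v P.x (fun q => 4 * k * v * ⟪V q.2, P.S.Pvh q (uu P.x v q.1)⟫_ℝ
          - 4 * k ^ 2 * gam Γ0 v q.2) := by
    rw [av_sub (av_int_const_mul _ i1) (av_int_const_mul _ i2), av_const_mul, av_const_mul]
    unfold PD.flux PD.U
    ring
  have e2 : v ^ 2 * P.Rv v
      = P.S.avg P.χ v P.x (fun q => v ^ 2 * ⟪P.S.B q (uu P.x v q.1), uu P.x v q.1⟫_ℝ) := by
    rw [av_const_mul]
    rfl
  rw [e1, e2]
  refine av_mono h.root v P.x (av_int_sub (av_int_const_mul _ i1) (av_int_const_mul _ i2))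
    (av_int_const_mul _ i3) (Eventually.of_forall fun q => ?_)
  set w := P.S.Pvh q (uu P.x v q.1) with hw
  have h1 : ‖w‖ ^ 2 ≤ ⟪P.S.B q (uu P.x v q.1), uu P.x v q.1⟫_ℝ := hS.Pvh_sq_le q _
  have h2 := hV.sq_le q.2
  have h3 : 0 ≤ ‖v • w - (2 * k) • V q.2‖ ^ 2 := sq_nonneg _
  rw [norm_sub_sq_real, norm_smul, norm_smul, inner_smul_left, inner_smul_right] at h3
  simp only [Real.norm_eq_abs, mul_pow, sq_abs, conj_trivial] at h3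
  rw [real_inner_comm] at h3
  have h4 : v ^ 2 * ‖w‖ ^ 2 ≤ v ^ 2 * ⟪P.S.B q (uu P.x v q.1), uu P.x v q.1⟫_ℝ :=
    mul_le_mul_of_nonneg_left h1 (sq_nonneg v)
  have h5 : 4 * k ^ 2 * ‖V q.2‖ ^ 2 ≤ 4 * k ^ 2 * gam Γ0 v q.2 :=
    mul_le_mul_of_nonneg_left h2 (by positivity)
  nlinarith

/-- Cauchy-Schwarz and `|P_vh u|² ≤ B[u, u]`. -/
theorem flux_cs {κ Cg Cv cv : ℝ} (P : PD m n Q) (h : P.Ok κ Cg) {v : ℝ} (hv : 0 < v)
    {W : Finset (E n)} {Γ0 : E n → ℝ} {V : E n → E n} (hc : Continuous Γ0)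
    (hV : WellVec W Cv cv v Γ0 V) :
    P.flux V v ^ 2 ≤ P.U Γ0 v * (v ^ 2 * P.Rv v) := by
  have hsq := flux_square P h hv hc hV
  have hU : 0 ≤ P.U Γ0 v :=
    av_nonneg h.root v P.x fun q => (sq_nonneg _).trans (hV.sq_le q.2)
  generalize P.flux V v = f at *
  generalize P.U Γ0 v = U at *
  generalize v ^ 2 * P.Rv v = X at *
  rcases hU.eq_or_lt with hU0 | hU0
  · rw [← hU0, zero_mul]
    have hf : f = 0 := by
      by_contra hf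
      have h1 := hsq ((X + 1) / (4 * f))
      rw [← hU0] at h1
      have h2 : 4 * ((X + 1) / (4 * f)) * f = X + 1 := by field_simp
      linarith
    rw [hf]; norm_num
  · have h1 := hsq (f / (2 * U))
    have h2 : 4 * (f / (2 * U)) * f - 4 * (f / (2 * U)) ^ 2 * U = f ^ 2 / U := by
      field_simp; ring
    rw [h2, div_le_iff₀ hU0] at h1
    linarith

theorem av_meas_tr_Pvv {S : Sys m n} (hV : S.Valid) {A : E n → E n →L[ℝ] E n} (hA : Continuous A) :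
    Measurable fun q : E m × E n => tr (S.Pvv q ∘L A q.2) :=
  av_measurable_tr (av_measurable_comp hV.meas_Pvv (hA.measurable.comp measurable_snd))

theorem av_tr_Pvv_le {S : Sys m n} (hV : S.Valid) (q : E m × E n) (A : E n →L[ℝ] E n) {C : ℝ}
    (hA : ‖A‖ ≤ C) : |tr (S.Pvv q ∘L A)| ≤ n * C * S.e q := by
  have h1 := av_abs_tr_le (S.Pvv q ∘L A)
  have h2 := ContinuousLinearMap.opNorm_comp_le (S.Pvv q) A
  have h3 := hV.norm_Pvv_le q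
  have h4 : ‖S.Pvv q‖ * ‖A‖ ≤ S.e q * C :=
    mul_le_mul h3 hA (norm_nonneg _) (hV.e_nonneg q)
  have hn : (0 : ℝ) ≤ n := Nat.cast_nonneg n
  calc |tr (S.Pvv q ∘L A)| ≤ n * ‖S.Pvv q ∘L A‖ := h1
    _ ≤ n * (S.e q * C) := mul_le_mul_of_nonneg_left (h2.trans h4) hn
    _ = _ := by ring

/-- the support over the Gaussian body lies strictly inside the pure radius. -/
theorem rough_lt (m n Q : ℕ) (hm : 1 ≤ m) (hQ : 1 ≤ Q) (κ Cg : ℝ) (hκ : 0 < κ) (F : Fix m n Q Cg)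
    (K1 J Cw cp c' : ℝ) (hK1 : 1 ≤ K1) (hJ : 0 ≤ J) (hCw : 1 ≤ Cw) (hc' : 0 < c') :
    ∃ T0 : ℝ, ∀ P : PD m n Q, P.Ok κ Cg → T0 ≤ P.T → ∀ v δ,
      P.Ctl K1 J v δ → ∀ (W : Finset (E n)) (Γ0 : E n → ℝ), W.Nonempty → WellFn W Cw cp Γ0 →
      ∀ k : ℝ, 1 / P.T ≤ k → k ≤ 1 → P.U Γ0 v ≤ v ^ 2 * δ / k →
      ∀ q ∈ P.S.spt, ‖q.1 - P.x‖ ≤ lev δ * v → infDist q.2 (W : Set (E n)) < c' * v := by
  obtain ⟨Ce, γ', T1, hCe, hγ', hr⟩ := rough_height m n Q hm hQ κ Cg F K1 J 1 Cw cp hK1 hJ le_rfl hCw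
  obtain ⟨T2, hsm⟩ := ctl_smalls m n Q hQ κ K1 (2 / c') 1 0 1 γ' 0 1 hκ hK1 one_pos hγ'
  refine ⟨max T1 T2, fun P hP hT v δ h W Γ0 hW hΓ k hk hk1 hU q hq hqx => ?_⟩
  obtain ⟨-, -, -, -, -, -, -, hS3, -⟩ := hsm P ((le_max_right _ _).trans hT) J v δ h
  have h1 := (hr P hP ((le_max_left _ _).trans hT) v δ h W Γ0 hW hΓ k hk hk1 hU).2 q hq hqx
  rw [neg_zero, Real.rpow_zero, div_mul_eq_mul_div, div_le_iff₀ hc'] at hS3
  have hv := h.v_pos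
  have h2 : 0 ≤ δ ^ γ' := Real.rpow_nonneg h.δ_pos.le _
  have h3 : δ ^ γ' < c' := by linarith
  calc infDist q.2 (W : Set (E n)) ≤ v * δ ^ γ' := h1
    _ < v * c' := mul_lt_mul_of_pos_left h3 hv
    _ = c' * v := mul_comm _ _

/-- normal stationarity with `G_s V`:  `s ∫ G_s V · P_vh u ≥ s² D_s - C s² D_tr - error`. -/
theorem flux_lower (m n Q : ℕ) (hm : 1 ≤ m) (hQ : 1 ≤ Q) (κ Cg : ℝ) (hκ : 0 < κ)
    (F : Fix m n Q Cg) (K1 J Cw cp Cv Pe : ℝ) (hK1 : 1 ≤ K1) (hJ : 0 ≤ J) (hCw : 1 ≤ Cw)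
    (hcp : 0 < cp) (hcp' : cp ≤ 1 / 4) (hCv : 1 ≤ Cv) :
    ∃ C T0 : ℝ, 0 < C ∧ ∀ P : PD m n Q, P.Ok κ Cg → T0 ≤ P.T → ∀ v δ, P.Ctl K1 J v δ →
      ∀ (W : Finset (E n)) (Γ0 : E n → ℝ) (V : E n → E n), W.Nonempty → WellFn W Cw cp Γ0 →
      WellVec W Cv (cp / 2) v Γ0 V → ∀ k : ℝ, 1 / P.T ≤ k → k ≤ 1 → P.U Γ0 v ≤ v ^ 2 * δ / k →
      v ^ 2 * P.Dv v - C * v ^ 2 * P.Dtr W (cp / 2) v - lev δ ^ (-Pe) * (v ^ 2 * δ)
        ≤ P.flux V v := by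
  obtain ⟨T1, hne⟩ := normal_err m n Q hm hQ κ Cg hκ K1 J 1 Cv (Pe + 1) hK1 hJ zero_le_one
    (by linarith)
  obtain ⟨T2, hrl⟩ := rough_lt m n Q hm hQ κ Cg hκ F K1 J Cw cp (cp / 2) hK1 hJ hCw (by linarith)
  obtain ⟨Ct, c, T3, hCt, hc, htl⟩ := ctl_avgE_tail m n Q hm hQ κ Cg K1 J hK1 hJ 0
  have hn0 : (0 : ℝ) ≤ n := Nat.cast_nonneg n
  obtain ⟨T4, hsm⟩ := ctl_smalls m n Q hQ κ K1 (2 * ((n * Cv + 1) * Ct)) 1 Pe c 1 0 1 hκ hK1 hc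
    one_pos
  refine ⟨n * Cv + 1, max (max T1 T2) (max T3 T4), by positivity,
    fun P hP hT v δ h W Γ0 V hW hΓ hV k hk hk1 hU => ?_⟩
  have hT1 : T1 ≤ P.T := le_trans (by simp) hT
  have hT2 : T2 ≤ P.T := le_trans (by simp) hT
  have hT3 : T3 ≤ P.T := le_trans (by simp) hT
  have hT4 : T4 ≤ P.T := le_trans (by simp) hT
  obtain ⟨-, -, -, hl2, -, -, hS2, -, -⟩ := hsm P hT4 J v δ h
  have hS := hP.root.hyp.valid
  have hv := h.v_pos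
  have hδ := h.δ_pos
  have hg0 : ∀ ζ, 0 ≤ gam Γ0 v ζ := fun ζ => (sq_nonneg _).trans (hV.sq_le ζ)
  have h1 := hne P hP hT1 v δ h Γ0 V hΓ.smooth.continuous hg0 hV.smooth
    (fun ζ => by rw [one_mul]; exact hV.sq_le ζ) hV.deriv_le k hk hk1 hU
  have h2 := pure_avg (a0 := 1) (c0 := n * Cv) (R := lev δ) (cv := cp / 2) hP hv W
    (av_meas_tr_Pvv hS (hV.smooth.continuous_fderiv one_ne_zero)) (by positivity)
    (fun q => av_tr_Pvv_le hS q _ (hV.deriv_le q.2))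
    (fun q hq hd => by
      obtain ⟨b, hb, hcell⟩ := hq
      rw [infDist_eq_of_nearCell (by linarith) hb hcell] at hd
      rw [(hV.pure b hb q.2 hcell hd).2, one_mul]
      have : P.S.Pvv q ∘L ContinuousLinearMap.id ℝ (E n) = P.S.Pvv q := by ext; simp
      rw [this, ← hS.tr_B_eq q]
      rfl)
    (hrl P hP hT2 v δ h W Γ0 hW hΓ k hk hk1 hU)
  have h3 := htl P hP hT3 v δ h (lev δ) (by linarith)
  have h3' : P.S.avg P.χ v P.x (tlE P v (lev δ) 0) ≤ Ct * Real.exp (-c * lev δ ^ 2) * δ := h3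
  have hδ1 : δ ≤ 1 := by
    rw [← h.exp_neg_lev]
    exact Real.exp_le_one_iff.2 (by linarith)
  have hLP : 0 < lev δ ^ (-Pe) := Real.rpow_pos_of_pos (by linarith) _
  have hLP1 : lev δ ^ (-(Pe + 1)) ≤ lev δ ^ (-Pe) / 2 := by
    have e : -(Pe + 1) = -Pe + -1 := by ring
    rw [e, Real.rpow_add (by linarith), Real.rpow_neg_one, div_eq_mul_inv]
    apply mul_le_mul_of_nonneg_left _ hLP.le
    exact inv_anti₀ (by norm_num) hl2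
  rw [abs_one, one_mul] at h2
  have h4 := (abs_le.1 h1).1
  have h5 := (abs_le.1 h2).1
  have hfl : P.flux V v = v * P.S.avg P.χ v P.x (fun q => ⟪V q.2, P.S.Pvh q (uu P.x v q.1)⟫_ℝ) := rfl
  rw [hfl]
  generalize P.S.avg P.χ v P.x (fun q => ⟪V q.2, P.S.Pvh q (uu P.x v q.1)⟫_ℝ) = Fl at *
  generalize P.S.avg P.χ v P.x (fun q => tr (P.S.Pvv q ∘L fderiv ℝ V q.2)) = NN at *
  generalize P.S.avg P.χ v P.x (tlE P v (lev δ) 0) = Tl at *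
  generalize P.Dtr W (cp / 2) v = Dt at *
  generalize P.Dv v = D at *
  generalize lev δ ^ (-(Pe + 1)) = LP1 at *
  generalize lev δ ^ (-Pe) = LP at *
  generalize Real.exp (-c * lev δ ^ 2) = ee at *
  have hc1 : 0 < (n : ℝ) * Cv + 1 := by positivity
  have h6 : ((n : ℝ) * Cv + 1) * Tl ≤ LP / 2 * δ := by
    calc ((n : ℝ) * Cv + 1) * Tl ≤ ((n : ℝ) * Cv + 1) * (Ct * ee * δ) :=
          mul_le_mul_of_nonneg_left h3' hc1.le
      _ = (2 * (((n : ℝ) * Cv + 1) * Ct) * ee) / 2 * δ := by ring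
      _ ≤ (LP * δ) / 2 * δ := by gcongr
      _ ≤ (LP * 1) / 2 * δ := by gcongr
      _ = _ := by ring
  have hv2 : 0 < v ^ 2 := by positivity
  have h7 : v ^ 2 * (((n : ℝ) * Cv + 1) * Tl) ≤ v ^ 2 * (LP / 2 * δ) :=
    mul_le_mul_of_nonneg_left h6 hv2.le
  have h8 : LP1 * (v ^ 2 * δ) ≤ LP / 2 * (v ^ 2 * δ) :=
    mul_le_mul_of_nonneg_right hLP1 (by positivity)
  have h9 : v ^ 2 * (-(((n : ℝ) * Cv + 1) * (Dt + Tl))) ≤ v ^ 2 * (NN - D) :=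
    mul_le_mul_of_nonneg_left h5 hv2.le
  nlinarith

/-- **AE (5.14).** -/
theorem radial_lower (m n Q : ℕ) (hm : 1 ≤ m) (hQ : 1 ≤ Q) (κ Cg : ℝ) (hκ : 0 < κ)
    (F : Fix m n Q Cg) (K1 J Cw cp Pe : ℝ) (hK1 : 1 ≤ K1) (hJ : 0 ≤ J) (hCw : 1 ≤ Cw)
    (hcp : 0 < cp) (hcp' : cp ≤ 1 / 4) :
    ∃ C T0 : ℝ, 0 < C ∧ ∀ P : PD m n Q, P.Ok κ Cg → T0 ≤ P.T → ∀ v δ, P.Ctl K1 J v δ →
      ∀ (W : Finset (E n)) (Γ0 : E n → ℝ), W.Nonempty → WellFn W Cw cp Γ0 →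
      ∀ k : ℝ, 1 / P.T ≤ k → k ≤ 1 → P.U Γ0 v ≤ v ^ 2 * δ / k →
      4 * k * (v ^ 2 * P.Dv v - C * v ^ 2 * P.Dtr W (cp / 2) v) - 4 * k ^ 2 * P.U Γ0 v
          - lev δ ^ (-Pe) * k * (v ^ 2 * δ)
        ≤ v ^ 2 * P.Rv v := by
  obtain ⟨Cv, hCv, hex⟩ := exists_wellVec n Cw cp hCw hcp hcp'
  obtain ⟨C, T1, hC, hfl⟩ := flux_lower m n Q hm hQ κ Cg hκ F K1 J Cw cp Cv (Pe + 2) hK1 hJ hCw hcp
    hcp' hCv
  obtain ⟨T2, hsm⟩ := ctl_small m n Q hQ K1 0 0 1 1 hK1 one_pos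
  refine ⟨C, max T1 T2, hC, fun P hP hT v δ h W Γ0 hW hΓ k hk hk1 hU => ?_⟩
  obtain ⟨hT2, -, -, hl2, -, -⟩ := hsm P ((le_max_right _ _).trans hT) J v δ h
  have hv := h.v_pos
  have hδ := h.δ_pos
  obtain ⟨V, hV⟩ := hex W Γ0 hW hΓ v hv
  have h1 := hfl P hP ((le_max_left _ _).trans hT) v δ h W Γ0 V hW hΓ hV k hk hk1 hU
  have h2 := flux_square P hP hv hΓ.smooth.continuous hV k
  have hk0 : 0 < k := lt_of_lt_of_le (by positivity) hk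
  have hLP : 0 < lev δ ^ (-Pe) := Real.rpow_pos_of_pos (by linarith) _
  have hLP2 : 4 * lev δ ^ (-(Pe + 2)) ≤ lev δ ^ (-Pe) := by
    have e : -(Pe + 2) = -Pe + -2 := by ring
    have h3 : lev δ ^ (-2 : ℝ) ≤ 1 / 4 := by
      rw [Real.rpow_neg (by linarith), Real.rpow_two, ← one_div]
      apply one_div_le_one_div_of_le (by norm_num)
      nlinarith
    rw [e, Real.rpow_add (by linarith)]
    nlinarith
  generalize lev δ ^ (-(Pe + 2)) = LP2 at *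
  generalize lev δ ^ (-Pe) = LP at *
  have hX : 0 < v ^ 2 * δ := by positivity
  have h4 : 4 * k * (v ^ 2 * P.Dv v - C * v ^ 2 * P.Dtr W (cp / 2) v - LP2 * (v ^ 2 * δ))
      ≤ 4 * k * P.flux V v := mul_le_mul_of_nonneg_left h1 (by positivity)
  have h5 : 4 * LP2 * (k * (v ^ 2 * δ)) ≤ LP * (k * (v ^ 2 * δ)) :=
    mul_le_mul_of_nonneg_right hLP2 (by positivity)
  nlinarith

end Claimed.Agent.R322.Sx
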