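import Claimed.Agent.R322.Sx.Cells

/-!
# R322 / Sx / Moment / Height : package Moment-A (support, chart, heights near the wells)

Moved verbatim from `Sx/Moment.lean` (see the header there), so that the packages A, B, C can be proved
in different files.
-/

set_option autoImplicit false

namespace Claimed.Agent.R322.Sx

open MeasureTheory Set Metric
open scoped ENNReal NNReal InnerProductSpace

variable {m n Q : ℕ}

/-- the mass measure is carried by its support. -/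
theorem Sys.ae_mem_spt (S : Sys m n) : ∀ᵐ q ∂S.μ, q ∈ S.spt := by
  have h := Measure.support_mem_ae (μ := S.μ)
  filter_upwards [h] with q hq ε hε
  exact (Measure.mem_support_iff_forall q).mp hq _ (ball_mem_nhds q hε)

/-- the standing chart of a path datum. -/
theorem PD.chart (m n Q : ℕ) (κ Cg : ℝ) :
    ∃ K0 T0 : ℝ, ∀ P : PD m n Q, P.Ok κ Cg → T0 ≤ P.T → Chart P.S P.χ 0 2 1 P.x 1 K0 := by
  refine ⟨1 + (2 * Q + 1) * (volume (closedBall (0 : E m) 3)).toReal, 0, fun P h hT => ?_⟩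
  have hR := h.root
  have hV := hR.hyp.valid
  have e3 : (2 : ℝ) + 1 = 3 := by norm_num
  refine ⟨hR.cut, one_pos, two_pos, by norm_num, by rw [e3]; exact cmpl_K_subset hR, one_pos,
    h.ball_sub le_rfl, ?_⟩
  rw [e3]
  obtain ⟨V, hVdef⟩ : ∃ V : ℝ, V = (volume (closedBall (0 : E m) 3)).toReal := ⟨_, rfl⟩
  have hV0 : 0 ≤ V := by rw [hVdef]; exact ENNReal.toReal_nonneg
  have hVe : volume (closedBall (0 : E m) 3) = ENNReal.ofReal V := by
    rw [hVdef, ENNReal.ofReal_toReal measure_closedBall_lt_top.ne]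
  have h1 : P.S.nu (closedBall (0 : E m) 3)
      ≤ P.S.absM Q (closedBall (0 : E m) 3) + (Q : ℝ≥0∞) * P.S.volS (closedBall (0 : E m) 3) := by
    have := hV.nu_le Q (closedBall (0 : E m) 3)
    simpa using this
  have h2 : P.S.absM Q (closedBall (0 : E m) 3) ≤ ENNReal.ofReal 1 := by
    refine (ctl_absM_le P.S Q _).trans ((measure_mono (closedBall_subset_ball (by norm_num))).trans
      (hR.hyp.small.trans (ENNReal.ofReal_le_ofReal ?_)))
    exact Real.exp_le_one_iff.mpr (by linarith)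
  have h3 : P.S.volS (closedBall (0 : E m) 3) ≤ ENNReal.ofReal (2 * V) := by
    refine (hV.volS_le _).trans ?_
    rw [hVe, ENNReal.ofReal_mul (by norm_num)]
    simp
  have hQe : (Q : ℝ≥0∞) = ENNReal.ofReal Q := by simp
  rw [← hVdef]
  calc P.S.nu (closedBall (0 : E m) 3) + volume (closedBall (0 : E m) 3)
      ≤ (ENNReal.ofReal 1 + ENNReal.ofReal Q * ENNReal.ofReal (2 * V)) + ENNReal.ofReal V := by
        rw [hVe]
        gcongr
        refine h1.trans ?_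
        rw [hQe]
        gcongr
    _ = ENNReal.ofReal (1 + (2 * Q + 1) * V) := by
        rw [← ENNReal.ofReal_mul (by positivity), ← ENNReal.ofReal_add (by norm_num) (by positivity),
          ← ENNReal.ofReal_add (by positivity) hV0]
        congr 1
        ring

/-- the normal flux `s ∫ G_s V · P_vh u dμ`. -/
noncomputable def PD.flux (P : PD m n Q) (V : E n → E n) (v : ℝ) : ℝ :=
  v * P.S.avg P.χ v P.x fun q => ⟪V q.2, P.S.Pvh q (uu P.x v q.1)⟫_ℝ

/-! ## Package Moment-A : heights -/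

/-! ### tools -/

/-- distance to the wells from the distance to a list whose entries are near the wells. -/
theorem mh_infDist_le (hQ : 1 ≤ Q) {A : Fin Q → E n} {W : Finset (E n)} {Δ : ℝ}
    (hN : NearW A W Δ) (ζ : E n) : infDist ζ (W : Set (E n)) ≤ Sys.distA A ζ + Δ := by
  have hne : (range A).Nonempty := ⟨A ⟨0, hQ⟩, mem_range_self _⟩
  have h1 : infDist ζ (W : Set (E n)) - Δ ≤ infDist ζ (range A) := by
    refine (le_infDist hne).mpr ?_
    rintro _ ⟨j, rfl⟩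
    obtain ⟨b, hb, hbj⟩ := hN j
    have h2 : infDist ζ (W : Set (E n)) ≤ dist ζ b := infDist_le_dist_of_mem (by exact_mod_cast hb)
    have h3 : dist ζ b ≤ dist ζ (A j) + dist (A j) b := dist_triangle _ _ _
    rw [dist_eq_norm (A j) b] at h3
    linarith
  unfold Sys.distA
  linarith

/-- continuous functions are integrable over compact pieces of the base (properness). -/
theorem mh_integrableOn {S : Sys m n} (hV : S.Valid) {K : Set (E m)} (hK : IsCompact K)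
    (hKΩ : K ⊆ S.Ω) {g : E m × E n → ℝ} (hg : Continuous g) :
    IntegrableOn g (K ×ˢ (univ : Set (E n))) S.μ := by
  obtain ⟨H, hH⟩ := hV.proper K hK hKΩ
  obtain ⟨C, hC⟩ := (hK.prod (isCompact_closedBall (0 : E n) H)).exists_bound_of_continuousOn
    hg.continuousOn
  refine Measure.integrableOn_of_bounded (M := C) (hV.finite_mass K hK hKΩ).ne
    hg.aestronglyMeasurable ?_
  rw [ae_restrict_iff' (hK.isClosed.measurableSet.prod MeasurableSet.univ), ae_iff]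
  refine measure_mono_null ?_ hH
  intro q hq
  simp only [mem_ofPred_eq, Classical.not_imp] at hq
  refine ⟨hq.1.1, ?_⟩
  by_contra hcon
  apply hq.2
  have h2 : q.2 ∈ closedBall (0 : E n) H := by
    rw [mem_closedBall, dist_zero_right]
    exact not_lt.1 hcon
  exact hC q ⟨hq.1.1, h2⟩

/-- rates: `log T` is small compared with the level. -/
theorem mh_rate (m n Q : ℕ) (K1 ε : ℝ) (hK1 : 1 ≤ K1) (hε : 0 < ε) :
    ∃ T0 : ℝ, ∀ P : PD m n Q, T0 ≤ P.T → ∀ J v δ, P.Ctl K1 J v δ →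
      1 ≤ P.T ∧ Real.log P.T ≤ ε * lev δ := by
  have h1 : ∀ᶠ T in Filter.atTop, Real.log T ^ 1 / FQ Q T < 1 :=
    (log_pow_div_FQ Q 1).eventually (gt_mem_nhds one_pos)
  obtain ⟨T0, hT0⟩ := Filter.eventually_atTop.1 (h1.and ((cmpl_rate_F Q (1 / ε + Real.log K1 + 1)).and
    (Filter.eventually_ge_atTop 1)))
  refine ⟨T0, fun P hT J v δ h => ?_⟩
  obtain ⟨h2, h3, h4⟩ := hT0 P.T hT
  have hlogK : 0 ≤ Real.log K1 := Real.log_nonneg hK1
  have hinv : 0 < 1 / ε := by positivity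
  have hF0 : 0 < FQ Q P.T := by linarith
  rw [pow_one, div_lt_one hF0] at h2
  refine ⟨h4, ?_⟩
  have h5 := h.lev_ge hK1
  have h6 : FQ Q P.T ≤ ε * (FQ Q P.T ^ 2 - Real.log K1) := by
    have h7 : ε * (1 / ε) = 1 := by field_simp
    have h8 : FQ Q P.T * (1 / ε + Real.log K1 + 1) ≤ FQ Q P.T ^ 2 := by nlinarith
    have h9 : ε * (FQ Q P.T * (1 / ε + Real.log K1 + 1)) ≤ ε * FQ Q P.T ^ 2 :=
      mul_le_mul_of_nonneg_left h8 hε.le
    have h10 : ε * (FQ Q P.T * (1 / ε + Real.log K1 + 1))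
        = FQ Q P.T * (ε * (1 / ε)) + ε * FQ Q P.T * Real.log K1 + ε * FQ Q P.T := by ring
    rw [h10, h7] at h9
    have h11 : ε * Real.log K1 ≤ ε * FQ Q P.T * Real.log K1 := by
      have : 1 ≤ FQ Q P.T := by linarith
      nlinarith [mul_nonneg hε.le hlogK]
    nlinarith [mul_pos hε hF0]
  have h12 : ε * (FQ Q P.T ^ 2 - Real.log K1) ≤ ε * lev δ := mul_le_mul_of_nonneg_left h5 hε.le
  linarith

theorem mh_integrable_U {κ Cg : ℝ} (P : PD m n Q) (h : P.Ok κ Cg) {Γ0 : E n → ℝ}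
    (hc : Continuous Γ0) (v : ℝ) :
    Integrable (fun q : E m × E n => Sys.ker P.χ v P.x q.1 * gam Γ0 v q.2) P.S.μ :=
  h.root.hyp.valid.integrable_of_continuous
    (((wd_ker_continuous P h v).comp continuous_fst).mul
      ((gam_continuous hc v).comp continuous_snd))
    (wd_baseCpt P h fun q hq => by rw [wd_ker_zero P h v hq, zero_mul])

theorem mh_integrable_ker {κ Cg : ℝ} (P : PD m n Q) (h : P.Ok κ Cg) (v : ℝ) :
    Integrable (fun q : E m × E n => Sys.ker P.χ v P.x q.1) P.S.μ :=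
  h.root.hyp.valid.integrable_of_continuous ((wd_ker_continuous P h v).comp continuous_fst)
    (wd_baseCpt P h fun q hq => wd_ker_zero P h v hq)

/-- numerics: a super-exponentially small tail is below the density. -/
theorem mh_tail_num {Cm c a : ℝ} (hCm : 0 < Cm) (hc : 0 < c) (h2 : 2 ≤ a) (h8 : 8 / c ≤ a)
    (hl : Real.log (2 * Cm) ≤ a) :
    2 * (Cm * Real.exp (-c * (a ^ 2 / 2) ^ 2)) ≤ Real.exp (-a) := by
  have h1 : 2 * a ≤ c * (a ^ 2 / 2) ^ 2 := by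
    have h3 : 8 ≤ c * a := by rwa [div_le_iff₀ hc, mul_comm] at h8
    have h4 : c * (a ^ 2 / 2) ^ 2 = (c * a) * (a ^ 3 / 4) := by ring
    rw [h4]
    have h5 : a ≤ a ^ 3 / 4 := by nlinarith [sq_nonneg a, mul_self_nonneg (a - 2)]
    nlinarith
  have h6 : Real.exp (-c * (a ^ 2 / 2) ^ 2) ≤ Real.exp (-a) * Real.exp (-a) := by
    rw [← Real.exp_add]; apply Real.exp_le_exp.mpr; linarith
  have h7 : 2 * Cm * Real.exp (-a) ≤ 1 := by
    have h9 : 2 * Cm = Real.exp (Real.log (2 * Cm)) := (Real.exp_log (by positivity)).symm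
    rw [h9, ← Real.exp_add]
    exact Real.exp_le_one_iff.mpr (by linarith)
  have h10 := Real.exp_pos (-a)
  calc 2 * (Cm * Real.exp (-c * (a ^ 2 / 2) ^ 2)) ≤ 2 * (Cm * (Real.exp (-a) * Real.exp (-a))) := by
        gcongr
    _ = (2 * Cm * Real.exp (-a)) * Real.exp (-a) := by ring
    _ ≤ 1 * Real.exp (-a) := mul_le_mul_of_nonneg_right h7 h10.le
    _ = _ := one_mul _

set_option maxHeartbeats 800000 in
/-- moment of the wells from a list whose entries are near the wells. -/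
theorem U_le_of_list (m n Q : ℕ) (hm : 1 ≤ m) (hQ : 1 ≤ Q) (κ Cg : ℝ) (F : Fix m n Q Cg)
    (K1 J Cl Cw cp : ℝ) (hK1 : 1 ≤ K1) (hJ : 0 ≤ J) (hCl : 1 ≤ Cl) (hCw : 1 ≤ Cw) :
    ∃ C T0 : ℝ, 0 < C ∧ ∀ P : PD m n Q, P.Ok κ Cg → T0 ≤ P.T → ∀ v δ, P.Ctl K1 J v δ →
      ∀ (W : Finset (E n)) (Γ0 : E n → ℝ), WellFn W Cw cp Γ0 →
      ∀ A : Fin Q → E n, F.IsMaj P.S P.x v (Cl * δ) A → ∀ Δ : ℝ, 0 ≤ Δ → NearW A W Δ →
      P.U Γ0 v ≤ C * (v ^ 2 * δ + Δ ^ 2) := by
  obtain ⟨Cp, T1, hmom⟩ := ctl_moment m n Q hm hQ κ Cg F K1 J Cl hK1 hJ hCl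
  obtain ⟨Cm, c, T2, hCm, hc, hmass⟩ := ctl_mass m n Q hm hQ κ Cg K1 J hK1 hJ 0
  obtain ⟨T3, hsmall⟩ := ctl_small m n Q hQ K1 0 0 1 (max (8 / c) (Real.log (2 * Cm))) hK1 one_pos
  refine ⟨2 * Cw * Cp 2 ^ 2 + 2 * Cw * Cm + 1, max T1 (max T2 T3), by positivity, ?_⟩
  intro P hP hT v δ h W Γ0 hW A hA Δ hΔ hN
  have hT1 : T1 ≤ P.T := (le_max_left _ _).trans hT
  have hT2 : T2 ≤ P.T := ((le_max_left _ _).trans (le_max_right _ _)).trans hT
  have hT3 : T3 ≤ P.T := ((le_max_right _ _).trans (le_max_right _ _)).trans hT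
  obtain ⟨hTT, -, hρ1, ha2, haN, -⟩ := hsmall P hT3 J v δ h
  have hR := hP.root
  have hV := hR.hyp.valid
  have hv := h.v_pos
  have hδ := h.δ_pos
  have hCw0 : 0 < Cw := by linarith
  have h0 := hW.nonneg hCw0
  have hcont : Continuous Γ0 := hW.smooth.continuous
  obtain ⟨a, hadef⟩ : ∃ a : ℝ, a = lev δ := ⟨_, rfl⟩
  rw [← hadef] at ha2 haN
  have hmom2 := hmom P hP hT1 v δ h A hA 2 (Or.inl rfl)
  rw [← hadef] at hmom2
  obtain ⟨hm1, hm2⟩ := hmass P hP hT2 v δ h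
  have hR1 : 1 ≤ a ^ 2 / 2 := by nlinarith
  have hm3 := hm2 (a ^ 2 / 2) hR1
  -- the body
  obtain ⟨Bd, hBd⟩ : ∃ Bd : Set (E m × E n), Bd = ball P.x (a ^ 2 * v) ×ˢ (univ : Set (E n)) :=
    ⟨_, rfl⟩
  have hBdm : MeasurableSet Bd := by rw [hBd]; exact measurableSet_ball.prod MeasurableSet.univ
  have hiU := mh_integrable_U P hP hcont v
  have hik := mh_integrable_ker P hP v
  have hker0 := fun y => ctl_ker_nonneg hR v P.x y
  have hsplit : P.U Γ0 v = (∫ q in Bd, Sys.ker P.χ v P.x q.1 * gam Γ0 v q.2 ∂P.S.μ)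
      + ∫ q in Bdᶜ, Sys.ker P.χ v P.x q.1 * gam Γ0 v q.2 ∂P.S.μ :=
    (integral_add_compl hBdm hiU).symm
  -- room: the body lies in a compact subset of `Ω`
  have hav : a ^ 2 * v ≤ 1 := by
    have h1 : a ≤ P.T / 2 := by rw [hadef]; exact h.lev_le
    have h2 : a ^ 2 ≤ P.T ^ 4 := by
      have h3 : a ^ 2 ≤ P.T ^ 2 := pow_le_pow_left₀ (by linarith) (by linarith) 2
      have h4 : P.T ^ 2 ≤ P.T ^ 4 := pow_le_pow_right₀ (by linarith) (by norm_num)
      linarith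
    exact (h.mul_le h2).trans hρ1
  have hBsub : ball P.x (a ^ 2 * v) ⊆ closedBall (0 : E m) 3 :=
    (hP.ball_sub hav).trans ((ball_subset_ball (by norm_num)).trans ball_subset_closedBall)
  have hig : IntegrableOn (fun q : E m × E n => gauss m v (q.1 - P.x) * Sys.distA A q.2 ^ (2 : ℝ))
      Bd P.S.μ := by
    have hcg : Continuous fun q : E m × E n => gauss m v (q.1 - P.x) * Sys.distA A q.2 ^ (2 : ℝ) := by
      have h1 : Continuous fun ζ : E n => Sys.distA A ζ := by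
        unfold Sys.distA; exact continuous_infDist_pt _
      have h2 := cmpl_continuous_gauss m v
      simp only [Real.rpow_two]
      fun_prop
    rw [hBd]
    exact (mh_integrableOn hV (isCompact_closedBall _ _) (cmpl_K_subset hR) hcg).mono_set
      (prod_mono hBsub le_rfl)
  -- (a) the body
  have hbody : ∫ q in Bd, Sys.ker P.χ v P.x q.1 * gam Γ0 v q.2 ∂P.S.μ
      ≤ 2 * Cw * (Cp 2 * v * Real.sqrt δ) ^ (2 : ℝ) + 2 * Cw * Δ ^ 2 * Cm := by
    have hpt : ∀ q : E m × E n, Sys.ker P.χ v P.x q.1 * gam Γ0 v q.2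
        ≤ 2 * Cw * (gauss m v (q.1 - P.x) * Sys.distA A q.2 ^ (2 : ℝ))
          + 2 * Cw * Δ ^ 2 * Sys.ker P.χ v P.x q.1 := by
      intro q
      have h1 : gam Γ0 v q.2 ≤ 2 * Cw * (Sys.distA A q.2 ^ 2 + Δ ^ 2) := by
        have h2 := gam_le h0 hv q.2
        have h3 := hW.upper q.2
        have h4 := mh_infDist_le hQ hN q.2
        have h5 : (0 : ℝ) ≤ infDist q.2 (W : Set (E n)) := infDist_nonneg
        have h6 := pow_le_pow_left₀ h5 h4 2
        have h7 : (Sys.distA A q.2 + Δ) ^ 2 ≤ 2 * (Sys.distA A q.2 ^ 2 + Δ ^ 2) := by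
          nlinarith [sq_nonneg (Sys.distA A q.2 - Δ)]
        have h8 : Cw * infDist q.2 (W : Set (E n)) ^ 2 ≤ Cw * (2 * (Sys.distA A q.2 ^ 2 + Δ ^ 2)) :=
          mul_le_mul_of_nonneg_left (h6.trans h7) hCw0.le
        linarith
      have h9 : Sys.ker P.χ v P.x q.1 ≤ gauss m v (q.1 - P.x) := by
        unfold Sys.ker
        exact mul_le_of_le_one_left (cmpl_gauss_nonneg m v _) (hR.cut.le_one _)
      rw [Real.rpow_two]
      calc Sys.ker P.χ v P.x q.1 * gam Γ0 v q.2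
          ≤ Sys.ker P.χ v P.x q.1 * (2 * Cw * (Sys.distA A q.2 ^ 2 + Δ ^ 2)) :=
            mul_le_mul_of_nonneg_left h1 (hker0 _)
        _ = 2 * Cw * (Sys.ker P.χ v P.x q.1 * Sys.distA A q.2 ^ 2)
            + 2 * Cw * Δ ^ 2 * Sys.ker P.χ v P.x q.1 := by ring
        _ ≤ _ := by
            have : Sys.ker P.χ v P.x q.1 * Sys.distA A q.2 ^ 2
                ≤ gauss m v (q.1 - P.x) * Sys.distA A q.2 ^ 2 :=
              mul_le_mul_of_nonneg_right h9 (sq_nonneg _)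
            have h10 : 0 ≤ 2 * Cw := by positivity
            nlinarith
    have h11 : ∫ q in Bd, Sys.ker P.χ v P.x q.1 ∂P.S.μ ≤ Cm := by
      refine (setIntegral_le_integral hik (Filter.Eventually.of_forall fun q => hker0 _)).trans ?_
      refine le_trans (le_of_eq ?_) hm1
      unfold Sys.avg
      simp
    calc ∫ q in Bd, Sys.ker P.χ v P.x q.1 * gam Γ0 v q.2 ∂P.S.μ
        ≤ ∫ q in Bd, (2 * Cw * (gauss m v (q.1 - P.x) * Sys.distA A q.2 ^ (2 : ℝ))
          + 2 * Cw * Δ ^ 2 * Sys.ker P.χ v P.x q.1) ∂P.S.μ :=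
          integral_mono hiU.integrableOn
            ((hig.const_mul _).add (hik.integrableOn.const_mul _)) hpt
      _ = 2 * Cw * (∫ q in Bd, gauss m v (q.1 - P.x) * Sys.distA A q.2 ^ (2 : ℝ) ∂P.S.μ)
          + 2 * Cw * Δ ^ 2 * ∫ q in Bd, Sys.ker P.χ v P.x q.1 ∂P.S.μ := by
          rw [integral_add (hig.const_mul _) (hik.integrableOn.const_mul _), integral_const_mul,
            integral_const_mul]
      _ ≤ _ := by
          rw [hBd] at h11 ⊢
          have h12 : 0 ≤ 2 * Cw := by positivity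
          have h13 : 0 ≤ 2 * Cw * Δ ^ 2 := by positivity
          exact add_le_add (mul_le_mul_of_nonneg_left hmom2 h12)
            (mul_le_mul_of_nonneg_left h11 h13)
  -- (b) the tail
  have htail : ∫ q in Bdᶜ, Sys.ker P.χ v P.x q.1 * gam Γ0 v q.2 ∂P.S.μ
      ≤ 2 * v ^ 2 * (Cm * Real.exp (-c * (a ^ 2 / 2) ^ 2)) := by
    rw [← integral_indicator hBdm.compl]
    have hmeas : MeasurableSet {q : E m × E n | a ^ 2 / 2 * v < ‖q.1 - P.x‖} :=
      measurableSet_lt measurable_const (by fun_prop)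
    have hi2 : Integrable (fun q : E m × E n => Sys.ker P.χ v P.x q.1 *
        ({q : E m × E n | a ^ 2 / 2 * v < ‖q.1 - P.x‖}.indicator
          (fun q => (1 + ‖uu P.x v q.1‖ ^ 2) ^ 0) q)) P.S.μ := by
      have := hik.indicator hmeas
      refine this.congr (Filter.Eventually.of_forall fun q => ?_)
      by_cases hq : q ∈ {q : E m × E n | a ^ 2 / 2 * v < ‖q.1 - P.x‖}
      · simp [indicator_of_mem hq]
      · simp [indicator_of_notMem hq]
    calc ∫ q, Bdᶜ.indicator (fun q => Sys.ker P.χ v P.x q.1 * gam Γ0 v q.2) q ∂P.S.μ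
        ≤ ∫ q, 2 * v ^ 2 * (Sys.ker P.χ v P.x q.1 *
          ({q : E m × E n | a ^ 2 / 2 * v < ‖q.1 - P.x‖}.indicator
            (fun q => (1 + ‖uu P.x v q.1‖ ^ 2) ^ 0) q)) ∂P.S.μ := by
          refine integral_mono (hiU.indicator hBdm.compl) (hi2.const_mul _) fun q => ?_
          by_cases hq : q ∈ Bd
          · have hq' : q ∉ Bdᶜ := fun hc => hc hq
            simp only [indicator_of_notMem hq']
            exact mul_nonneg (by positivity) (mul_nonneg (hker0 _)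
              (indicator_nonneg (fun q _ => by positivity) q))
          · have hq' : q ∈ Bdᶜ := hq
            have hfar : q ∈ {q : E m × E n | a ^ 2 / 2 * v < ‖q.1 - P.x‖} := by
              have h1 : ¬ (‖q.1 - P.x‖ < a ^ 2 * v) := by
                intro hlt
                apply hq
                rw [hBd]
                exact ⟨by rw [mem_ball, dist_eq_norm]; exact hlt, mem_univ _⟩
              have h2 : a ^ 2 / 2 * v < a ^ 2 * v := by
                have : 0 < a ^ 2 * v := by positivity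
                linarith
              exact lt_of_lt_of_le h2 (not_lt.mp h1)
            simp only [indicator_of_mem hq', indicator_of_mem hfar, pow_zero, mul_one]
            have := gam_le_sq Γ0 v q.2
            nlinarith [hker0 q.1]
      _ = 2 * v ^ 2 * P.S.avg P.χ v P.x (fun q =>
          ({q : E m × E n | a ^ 2 / 2 * v < ‖q.1 - P.x‖}.indicator
            (fun q => (1 + ‖uu P.x v q.1‖ ^ 2) ^ 0) q)) := by
          rw [integral_const_mul]; rfl
      _ ≤ _ := mul_le_mul_of_nonneg_left hm3 (by positivity)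
  have hnum := mh_tail_num hCm hc ha2 ((le_max_left _ _).trans haN) ((le_max_right _ _).trans haN)
  have hexp : Real.exp (-a) = δ := by rw [hadef]; exact h.exp_neg_lev
  rw [hexp] at hnum
  have hsq : (Cp 2 * v * Real.sqrt δ) ^ (2 : ℝ) = Cp 2 ^ 2 * (v ^ 2 * δ) := by
    rw [Real.rpow_two, mul_pow, mul_pow, Real.sq_sqrt hδ.le]; ring
  rw [hsplit]
  rw [hsq] at hbody
  have hv2 : 0 ≤ v ^ 2 := sq_nonneg v
  have h20 : 2 * v ^ 2 * (Cm * Real.exp (-c * (a ^ 2 / 2) ^ 2)) ≤ v ^ 2 * δ := by nlinarith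
  have h21 : 0 ≤ v ^ 2 * δ := by positivity
  have h22 : 0 ≤ Δ ^ 2 := sq_nonneg Δ
  have h23 : 0 ≤ Cw * Cp 2 ^ 2 := by positivity
  have h24 : 0 ≤ Cw * Cm := by positivity
  nlinarith [mul_nonneg h23 h22, mul_nonneg h24 h21]

/-- Gaussian lower bound for the moment. -/
theorem mh_ball_le_U {κ Cg : ℝ} (P : PD m n Q) (h : P.Ok κ Cg) {Γ0 : E n → ℝ}
    (hc : Continuous Γ0) (h0 : ∀ ζ, 0 ≤ Γ0 ζ) {v : ℝ} (hv : 0 < v) (hv1 : v ≤ 1) :
    ∫ q in ball P.x v ×ˢ (univ : Set (E n)), gam Γ0 v q.2 ∂P.S.μ ≤ bC m * v ^ m * P.U Γ0 v := by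
  have hR := h.root
  have hV := hR.hyp.valid
  obtain ⟨c0, hc0⟩ : ∃ c0 : ℝ, c0 = (2 * Real.pi * v ^ 2) ^ (-(m : ℝ) / 2) * Real.exp (-(9 / 2)) :=
    ⟨_, rfl⟩
  have hc0pos : 0 < c0 := by rw [hc0]; exact mul_pos (ch_norm_pos m hv) (Real.exp_pos _)
  have hsub : ball P.x v ⊆ ball (0 : E m) 2 := h.ball_sub hv1
  have hBm : MeasurableSet (ball P.x v ×ˢ (univ : Set (E n))) :=
    measurableSet_ball.prod MeasurableSet.univ
  have hig : IntegrableOn (fun q : E m × E n => gam Γ0 v q.2) (ball P.x v ×ˢ (univ : Set (E n)))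
      P.S.μ :=
    (mh_integrableOn hV (isCompact_closedBall _ _) (cmpl_K_subset hR)
      ((gam_continuous hc v).comp continuous_snd)).mono_set
      (prod_mono (hsub.trans ((ball_subset_ball (by norm_num)).trans ball_subset_closedBall))
        le_rfl)
  have hiU := mh_integrable_U P h hc v
  have h1 : c0 * ∫ q in ball P.x v ×ˢ (univ : Set (E n)), gam Γ0 v q.2 ∂P.S.μ ≤ P.U Γ0 v := by
    rw [← integral_const_mul]
    calc ∫ q in ball P.x v ×ˢ (univ : Set (E n)), c0 * gam Γ0 v q.2 ∂P.S.μ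
        ≤ ∫ q in ball P.x v ×ˢ (univ : Set (E n)), Sys.ker P.χ v P.x q.1 * gam Γ0 v q.2 ∂P.S.μ := by
          refine setIntegral_mono_on (hig.const_mul _) hiU.integrableOn hBm fun q hq => ?_
          refine mul_le_mul_of_nonneg_right ?_ (gam_nonneg h0 v q.2)
          unfold Sys.ker
          rw [hR.cut.eq_one q.1 (hsub hq.1), one_mul, hc0]
          apply ch_gauss_ge m hv
          have := hq.1
          rw [mem_ball, dist_eq_norm] at this
          linarith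
      _ ≤ P.U Γ0 v :=
          setIntegral_le_integral hiU (Filter.Eventually.of_forall fun q =>
            mul_nonneg (ctl_ker_nonneg hR v P.x q.1) (gam_nonneg h0 v q.2))
  have e : bC m * v ^ m * c0 = 1 := by
    rw [hc0, ch_norm_eq m hv]
    unfold bC
    have hpi := Real.pi_pos
    have h2 : Real.exp (9 / 2) * Real.exp (-(9 / 2)) = 1 := by rw [← Real.exp_add]; simp
    have h3 : (0 : ℝ) < (2 * Real.pi) ^ ((m : ℝ) / 2) * v ^ m := by positivity
    calc (2 * Real.pi) ^ ((m : ℝ) / 2) * Real.exp (9 / 2) * v ^ m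
          * (((2 * Real.pi) ^ ((m : ℝ) / 2) * v ^ m)⁻¹ * Real.exp (-(9 / 2)))
        = ((2 * Real.pi) ^ ((m : ℝ) / 2) * v ^ m) * ((2 * Real.pi) ^ ((m : ℝ) / 2) * v ^ m)⁻¹
          * (Real.exp (9 / 2) * Real.exp (-(9 / 2))) := by ring
      _ = 1 := by rw [h2, mul_inv_cancel₀ h3.ne', one_mul]
  have h4 : 0 < bC m * v ^ m := mul_pos (bC_pos m) (by positivity)
  calc ∫ q in ball P.x v ×ˢ (univ : Set (E n)), gam Γ0 v q.2 ∂P.S.μ
      = bC m * v ^ m * (c0 * ∫ q in ball P.x v ×ˢ (univ : Set (E n)), gam Γ0 v q.2 ∂P.S.μ) := by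
        rw [← mul_assoc, e, one_mul]
    _ ≤ _ := mul_le_mul_of_nonneg_left h1 h4.le

theorem mh_deltamaj_le {Cg : ℝ} (F : Fix m n Q Cg) : F.δmaj ≤ 1 / 2 := by
  have h1 := F.δ_lt
  have h2 : thetaOv m ≤ 1 / 4 := by
    unfold thetaOv
    rw [div_le_iff₀ (by positivity)]
    have h3 : (3 / 4 : ℝ) ^ m ≤ 1 := pow_le_one₀ (by norm_num) (by norm_num)
    have h4 : (0 : ℝ) < 2 ^ m := by positivity
    linarith
  linarith

/-- `δ / k ≤ e^{-a/2}`. -/
theorem mh_delta_div_le {T a δ k : ℝ} (hT : 1 ≤ T) (hlog : Real.log T ≤ 1 / 2 * a)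
    (hδ : Real.exp (-a) = δ) (hk : 1 / T ≤ k) : δ / k ≤ Real.exp (-a / 2) := by
  have hT0 : 0 < T := by linarith
  have hk0 : 0 < k := lt_of_lt_of_le (by positivity) hk
  have h1 : 1 / k ≤ T := by
    rw [div_le_iff₀ hk0]
    rw [div_le_iff₀ hT0] at hk
    linarith
  have h2 : T ≤ Real.exp (a / 2) := by
    rw [← Real.exp_log hT0]; exact Real.exp_le_exp.mpr (by linarith)
  have hδ0 : 0 < δ := by rw [← hδ]; exact Real.exp_pos _
  calc δ / k = δ * (1 / k) := by ring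
    _ ≤ δ * Real.exp (a / 2) := mul_le_mul_of_nonneg_left (h1.trans h2) hδ0.le
    _ = Real.exp (-a / 2) := by rw [← hδ, ← Real.exp_add]; congr 1; ring

/-- "every entry lies within `C s √(e^{-a}/k)` of a well". -/
theorem mh_near (m n Q : ℕ) (hm : 1 ≤ m) (hQ : 1 ≤ Q) (κ Cg : ℝ) (F : Fix m n Q Cg)
    (K1 J Cl Cw cp : ℝ) (hK1 : 1 ≤ K1) (hCl : 1 ≤ Cl) (hCw : 1 ≤ Cw) :
    ∃ Ce T0 : ℝ, 0 < Ce ∧ ∀ P : PD m n Q, P.Ok κ Cg → T0 ≤ P.T → ∀ v δ,
      P.Ctl K1 J v δ → ∀ (W : Finset (E n)) (Γ0 : E n → ℝ), W.Nonempty → WellFn W Cw cp Γ0 →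
      ∀ k : ℝ, 1 / P.T ≤ k → k ≤ 1 → P.U Γ0 v ≤ v ^ 2 * δ / k →
      ∀ A : Fin Q → E n, F.IsMaj P.S P.x v (Cl * δ) A →
        NearW A W (Ce * v * Real.sqrt (δ / k)) := by
  obtain ⟨C', hC', hgam⟩ := gamOk n Cw cp hCw
  obtain ⟨Ceb, hCeb, hentry⟩ := entry_bound m n Q hm Cg
  obtain ⟨C2, hC2def⟩ : ∃ C2 : ℝ, C2 = Ceb * (bC m + C' ^ 2 * F.Cmaj ^ 2 * Cl) := ⟨_, rfl⟩
  have hbC := bC_pos m
  have hCmaj := F.Cmaj_pos
  have hC2 : 0 < C2 := by rw [hC2def]; positivity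
  obtain ⟨T1, hrate⟩ := mh_rate m n Q K1 (1 / 2) hK1 (by norm_num)
  obtain ⟨T2, hsmall⟩ := ctl_small m n Q hQ K1 0 0 1 (2 * Real.log (2 * C2)) hK1 one_pos
  have hCw0 : 0 < Cw := by linarith
  refine ⟨Real.sqrt (Cw * C2), max T1 T2, Real.sqrt_pos.mpr (by positivity), ?_⟩
  intro P hP hT v δ h W Γ0 hWne hW k hk hk1 hU A hA j
  obtain ⟨hT1, hlog⟩ := hrate P ((le_max_left _ _).trans hT) J v δ h
  obtain ⟨hTT, -, hρ1, ha2, haN, -⟩ := hsmall P ((le_max_right _ _).trans hT) J v δ h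
  have hR := hP.root
  have hV := hR.hyp.valid
  have hv := h.v_pos
  have hδ := h.δ_pos
  have hk0 : 0 < k := lt_of_lt_of_le (by positivity) hk
  have h0 := hW.nonneg hCw0
  have hcont : Continuous Γ0 := hW.smooth.continuous
  have hG := hgam W Γ0 hW
  have hv16 : v < 1 := by
    have h1 := h.room
    have h2 : (1 : ℝ) < P.T ^ 4 := one_lt_pow₀ (by linarith) (by norm_num)
    nlinarith
  have hdk := mh_delta_div_le hT1 hlog h.exp_neg_lev hk
  have hdk0 : 0 < δ / k := by positivity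
  have hsm : C2 * (δ / k) ≤ 1 / 2 := by
    have h1 : C2 * Real.exp (-lev δ / 2) ≤ 1 / 2 := by
      have h9 : 2 * C2 = Real.exp (Real.log (2 * C2)) := (Real.exp_log (by positivity)).symm
      have h10 : 2 * C2 * Real.exp (-lev δ / 2) ≤ 1 := by
        rw [h9, ← Real.exp_add]
        exact Real.exp_le_one_iff.mpr (by linarith)
      linarith
    exact (mul_le_mul_of_nonneg_left hdk hC2.le).trans h1
  -- the entry bound
  have hsubΩ : closedBall P.x v ⊆ P.S.Ω :=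
    (hP.closedBall_sub hv16).trans ((ball_subset_ball (by norm_num)).trans hR.hyp.room)
  have he := hentry P.S hV hR.hyp.Cg_le P.x v F.δmaj (F.Cmaj * v * Real.sqrt (Cl * δ)) hv hsubΩ
    (mh_deltamaj_le F) (by positivity) A hA (gam Γ0 v) C' (2 * v ^ 2) (gam_continuous hcont v)
    (fun ζ => gam_nonneg h0 v ζ) (fun ζ => gam_le_sq Γ0 v ζ) (by linarith)
    (fun ζ ζ' => hG.sqrt_lip v ζ ζ' hv) j
  have hb := mh_ball_le_U P hP hcont h0 hv hv16.le
  have hvm : 0 < v ^ m := by positivity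
  have hδk : δ ≤ δ / k := by
    rw [le_div_iff₀ hk0]; nlinarith
  have hgamA : gam Γ0 v (A j) ≤ C2 * (v ^ 2 * (δ / k)) := by
    have h1 : (F.Cmaj * v * Real.sqrt (Cl * δ)) ^ 2 = F.Cmaj ^ 2 * v ^ 2 * (Cl * δ) := by
      rw [mul_pow, mul_pow, Real.sq_sqrt (by positivity)]
    rw [h1] at he
    have h2 : gam Γ0 v (A j) * v ^ m
        ≤ (C2 * (v ^ 2 * (δ / k))) * v ^ m := by
      refine he.trans ?_
      have h3 : bC m * v ^ m * P.U Γ0 v ≤ bC m * v ^ m * (v ^ 2 * (δ / k)) := by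
        refine mul_le_mul_of_nonneg_left ?_ (by positivity)
        rw [← mul_div_assoc]; exact hU
      have h4 : C' ^ 2 * (F.Cmaj ^ 2 * v ^ 2 * (Cl * δ)) * v ^ m
          ≤ C' ^ 2 * (F.Cmaj ^ 2 * v ^ 2 * (Cl * (δ / k))) * v ^ m := by gcongr
      calc Ceb * ((∫ q in ball P.x v ×ˢ (univ : Set (E n)), gam Γ0 v q.2 ∂P.S.μ)
            + C' ^ 2 * (F.Cmaj ^ 2 * v ^ 2 * (Cl * δ)) * v ^ m)
          ≤ Ceb * (bC m * v ^ m * (v ^ 2 * (δ / k))
            + C' ^ 2 * (F.Cmaj ^ 2 * v ^ 2 * (Cl * (δ / k))) * v ^ m) :=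
            mul_le_mul_of_nonneg_left (add_le_add (hb.trans h3) h4) hCeb.le
        _ = _ := by rw [hC2def]; ring
    exact le_of_mul_le_mul_right h2 hvm
  have hΓA : Γ0 (A j) ≤ C2 * (v ^ 2 * (δ / k)) := by
    have hge := gam_ge h0 hv (A j)
    have hlt : C2 * (v ^ 2 * (δ / k)) < v ^ 2 := by
      have : 0 < v ^ 2 := by positivity
      nlinarith
    rcases le_total (Γ0 (A j)) (v ^ 2) with hle | hle
    · rw [min_eq_left hle] at hge; linarith
    · rw [min_eq_right hle] at hge; linarith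
  have hWs : (W : Set (E n)).Nonempty := by exact_mod_cast hWne
  obtain ⟨b, hb', hbd⟩ := W.finite_toSet.isCompact.exists_infDist_eq_dist hWs (A j)
  refine ⟨b, by exact_mod_cast hb', ?_⟩
  rw [← dist_eq_norm, ← hbd]
  have hlow := hW.lower (A j)
  apply le_of_pow_le_pow_left₀ (n := 2) (by norm_num) (by positivity)
  rw [mul_pow, mul_pow, Real.sq_sqrt (by positivity), Real.sq_sqrt hdk0.le]
  calc infDist (A j) (W : Set (E n)) ^ 2 ≤ Cw * Γ0 (A j) := hlow
    _ ≤ Cw * (C2 * (v ^ 2 * (δ / k))) := mul_le_mul_of_nonneg_left hΓA hCw0.le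
    _ = _ := by ring

/-- numerics for the support bound. -/
theorem mh_supp_num {Cb J' a δ β v Ce0 dk : ℝ} (hv : 0 < v) (ha : 0 < a)
    (hδ : Real.exp (-a) = δ) (hβ : β ≤ 1 / 4) (hCe : 0 < Ce0)
    (h1 : |Cb| * 2 ^ J' * (a ^ J' * Real.exp (-(β / 2) * a)) ≤ 1 / 2)
    (h2 : 8 * Real.log (2 * Ce0) ≤ a) (hdk : dk ≤ Real.exp (-a / 2)) :
    Cb * (2 * a) ^ J' * v * δ ^ β + Ce0 * v * Real.sqrt dk ≤ v * δ ^ (β / 2) := by
  obtain ⟨Ee, hE⟩ : ∃ Ee : ℝ, Ee = Real.exp (-(β / 2) * a) := ⟨_, rfl⟩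
  have hE0 : 0 < Ee := by rw [hE]; exact Real.exp_pos _
  have e1 : δ ^ β = Ee * Ee := by
    rw [← hδ, ← Real.exp_mul, hE, ← Real.exp_add]; congr 1; ring
  have e2 : δ ^ (β / 2) = Ee := by
    rw [← hδ, ← Real.exp_mul, hE]; congr 1; ring
  have e3 : (2 * a) ^ J' = 2 ^ J' * a ^ J' := Real.mul_rpow (by norm_num) ha.le
  rw [← hE] at h1
  have h2J : (0 : ℝ) < 2 ^ J' := Real.rpow_pos_of_pos (by norm_num) _
  have haJ : (0 : ℝ) < a ^ J' := Real.rpow_pos_of_pos ha _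
  have t1 : Cb * (2 * a) ^ J' * v * δ ^ β ≤ 1 / 2 * (v * Ee) := by
    rw [e1, e3]
    calc Cb * (2 ^ J' * a ^ J') * v * (Ee * Ee)
        = Cb * (2 ^ J' * a ^ J' * Ee * (v * Ee)) := by ring
      _ ≤ |Cb| * (2 ^ J' * a ^ J' * Ee * (v * Ee)) :=
          mul_le_mul_of_nonneg_right (le_abs_self _) (by positivity)
      _ = (|Cb| * 2 ^ J' * (a ^ J' * Ee)) * (v * Ee) := by ring
      _ ≤ 1 / 2 * (v * Ee) := mul_le_mul_of_nonneg_right h1 (by positivity)
  have t2 : Ce0 * v * Real.sqrt dk ≤ 1 / 2 * (v * Ee) := by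
    have h3 : Real.sqrt dk ≤ Real.exp (-a / 4) := by
      refine (Real.sqrt_le_sqrt hdk).trans (le_of_eq ?_)
      rw [Real.sqrt_eq_iff_mul_self_eq (Real.exp_pos _).le (Real.exp_pos _).le, ← Real.exp_add]
      congr 1; ring
    have h4 : 2 * Ce0 * Real.exp (-a / 4) ≤ Ee := by
      have h9 : 2 * Ce0 = Real.exp (Real.log (2 * Ce0)) := (Real.exp_log (by positivity)).symm
      rw [h9, ← Real.exp_add, hE]
      apply Real.exp_le_exp.mpr
      nlinarith
    calc Ce0 * v * Real.sqrt dk ≤ Ce0 * v * Real.exp (-a / 4) :=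
          mul_le_mul_of_nonneg_left h3 (by positivity)
      _ = 1 / 2 * (v * (2 * Ce0 * Real.exp (-a / 4))) := by ring
      _ ≤ 1 / 2 * (v * Ee) := by gcongr
  rw [e2]
  linarith

/-- AE (5.17) and "every entry lies within `C s √(e^{-a}/k)` of a well". -/
theorem rough_height (m n Q : ℕ) (hm : 1 ≤ m) (hQ : 1 ≤ Q) (κ Cg : ℝ) (F : Fix m n Q Cg)
    (K1 J Cl Cw cp : ℝ) (hK1 : 1 ≤ K1) (hJ : 0 ≤ J) (hCl : 1 ≤ Cl) (hCw : 1 ≤ Cw) :
    ∃ Ce γ' T0 : ℝ, 0 < Ce ∧ 0 < γ' ∧ ∀ P : PD m n Q, P.Ok κ Cg → T0 ≤ P.T → ∀ v δ,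
      P.Ctl K1 J v δ → ∀ (W : Finset (E n)) (Γ0 : E n → ℝ), W.Nonempty → WellFn W Cw cp Γ0 →
      ∀ k : ℝ, 1 / P.T ≤ k → k ≤ 1 → P.U Γ0 v ≤ v ^ 2 * δ / k →
      (∀ A : Fin Q → E n, F.IsMaj P.S P.x v (Cl * δ) A → NearW A W (Ce * v * Real.sqrt (δ / k))) ∧
      ∀ q ∈ P.S.spt, ‖q.1 - P.x‖ ≤ lev δ * v → infDist q.2 (W : Set (E n)) ≤ v * δ ^ γ' := by
  obtain ⟨Ce, T1, hCe, hnear⟩ := mh_near m n Q hm hQ κ Cg F K1 J Cl Cw cp hK1 hCl hCw
  obtain ⟨Cl0, T2, hCl0, hlist⟩ := ctl_list m n Q hm hQ κ Cg F K1 J hK1 hJ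
  obtain ⟨Ce0, T3, hCe0, hnear0⟩ := mh_near m n Q hm hQ κ Cg F K1 J Cl0 Cw cp hK1 hCl0 hCw
  obtain ⟨J', Cβ, T4, hJ', hsupp⟩ := ctl_support m n Q hm hQ κ Cg F K1 J Cl0 hK1 hJ hCl0
  obtain ⟨β, hβdef⟩ : ∃ β : ℝ, β = 1 / (2 * (m : ℝ) + 2) := ⟨_, rfl⟩
  have hm0 : (1 : ℝ) ≤ m := by exact_mod_cast hm
  have hβ0 : 0 < β := by rw [hβdef]; positivity
  have hβ4 : β ≤ 1 / 4 := by
    rw [hβdef]
    exact one_div_le_one_div_of_le (by norm_num) (by linarith)
  have hadm : AdmB m β := by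
    refine ⟨hβ0, by linarith, ?_⟩
    rw [hβdef, div_mul_eq_mul_div, div_lt_one (by positivity)]
    linarith
  have hlim := tendsto_rpow_mul_exp_neg_mul_atTop_nhds_zero J' (β / 2) (by positivity)
  have hev : ∀ᶠ a in Filter.atTop,
      |Cβ β| * 2 ^ J' * (a ^ J' * Real.exp (-(β / 2) * a)) ≤ 1 / 2 := by
    have h := hlim.const_mul (|Cβ β| * 2 ^ J')
    rw [mul_zero] at h
    exact (h.eventually (gt_mem_nhds (by norm_num : (0 : ℝ) < 1 / 2))).mono fun a ha => ha.le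
  obtain ⟨L1, hL1⟩ := Filter.eventually_atTop.1 hev
  obtain ⟨T5, hrate⟩ := mh_rate m n Q K1 (1 / 2) hK1 (by norm_num)
  obtain ⟨T6, hsmall⟩ := ctl_small m n Q hQ K1 0 0 1 (max L1 (8 * Real.log (2 * Ce0))) hK1 one_pos
  refine ⟨Ce, β / 2, max T1 (max T2 (max T3 (max T4 (max T5 T6)))), hCe, by positivity, ?_⟩
  intro P hP hT v δ h W Γ0 hWne hW k hk hk1 hU
  have hTa : T1 ≤ P.T := (le_max_left _ _).trans hT
  have hRa := (le_max_right _ _).trans hT
  have hTb : T2 ≤ P.T := (le_max_left _ _).trans hRa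
  have hRb := (le_max_right _ _).trans hRa
  have hTc : T3 ≤ P.T := (le_max_left _ _).trans hRb
  have hRc := (le_max_right _ _).trans hRb
  have hTd : T4 ≤ P.T := (le_max_left _ _).trans hRc
  have hRd := (le_max_right _ _).trans hRc
  have hTe : T5 ≤ P.T := (le_max_left _ _).trans hRd
  have hTf : T6 ≤ P.T := (le_max_right _ _).trans hRd
  refine ⟨fun A hA => hnear P hP hTa v δ h W Γ0 hWne hW k hk hk1 hU A hA, fun q hq hqn => ?_⟩
  obtain ⟨A0, hA0⟩ := hlist P hP hTb v δ h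
  have hN0 := hnear0 P hP hTc v δ h W Γ0 hWne hW k hk hk1 hU A0 hA0.maj
  obtain ⟨hT1, hlog⟩ := hrate P hTe J v δ h
  obtain ⟨-, -, -, ha2, haN, -⟩ := hsmall P hTf J v δ h
  have hv := h.v_pos
  have hs := hsupp P hP hTd v δ h A0 hA0.maj β hadm (2 * lev δ) (by linarith) (by nlinarith) q hq
    (by rw [mem_ball, dist_eq_norm]; nlinarith)
  have hi := mh_infDist_le hQ hN0 q.2
  have hdk := mh_delta_div_le hT1 hlog h.exp_neg_lev hk
  have hnum := mh_supp_num (Cb := Cβ β) (J' := J') hv (by linarith) h.exp_neg_lev hβ4 hCe0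
    (hL1 _ ((le_max_left _ _).trans haN)) ((le_max_right _ _).trans haN) hdk
  linarith

end Claimed.Agent.R322.Sx
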