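import Claimed.Agent.R322.Sx.Moment.Avg
import Claimed.Agent.R322.Sx.Moment.Height

/-!
# R322 / Sx / Moment / Normal : normal stationarity at a controlled scale

* `pure_avg` : an integrand equal to `a0 e` on the pure part (near a well, below the clipping scale) and
  `O(e)` everywhere has average `a0 D_v` up to `C (D_tr + Gaussian tail)`.
* `normal_err` : `gauss_normal` for a field with `|w|² ≤ Cq Γ_v`, `|Dw| ≤ Cd`, under `U ≤ v² δ / k`:
  all curved errors and chart tails are `≤ (lev δ)^{-Pe} v² δ`.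
-/

set_option autoImplicit false

namespace Claimed.Agent.R322.Sx

open MeasureTheory Set Metric Filter Topology
open scoped ENNReal NNReal InnerProductSpace

variable {m n Q : ℕ}

theorem av_measurable_apply {k l : ℕ} {α : Type*} [MeasurableSpace α] {A : α → E k →L[ℝ] E l}
    {f : α → E k} (hA : Measurable A) (hf : Measurable f) : Measurable fun a => A a (f a) := by
  have hc : Continuous fun p : (E k →L[ℝ] E l) × E k => p.1 p.2 :=
    isBoundedBilinearMap_apply.continuous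
  exact hc.measurable.comp (hA.prodMk hf)

theorem av_meas_Pvh_uu {S : Sys m n} (hV : S.Valid) (x : E m) (v : ℝ) :
    Measurable fun q : E m × E n => S.Pvh q (uu x v q.1) :=
  av_measurable_apply hV.meas_Pvh (av_measurable_uu x v)

theorem av_meas_B_uu {S : Sys m n} (hV : S.Valid) (x : E m) (v : ℝ) :
    Measurable fun q : E m × E n => ⟪S.B q (uu x v q.1), uu x v q.1⟫_ℝ :=
  (av_measurable_apply hV.meas_B (av_measurable_uu x v)).inner (av_measurable_uu x v)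

section Root
variable {S : Sys m n} {κ Cg T : ℝ} {χ : E m → ℝ}

theorem av_abs_le (hR : Root S Q κ Cg T χ) (v : ℝ) (x : E m) {f g : E m × E n → ℝ}
    (hg : Integrable (fun q => Sys.ker χ v x q.1 * g q) S.μ) (h : ∀ᵐ q ∂S.μ, |f q| ≤ g q) :
    |S.avg χ v x f| ≤ S.avg χ v x g := by
  unfold Sys.avg
  rw [← Real.norm_eq_abs]
  refine norm_integral_le_of_norm_le hg ?_
  filter_upwards [h] with q hq
  rw [Real.norm_eq_abs, abs_mul, abs_of_nonneg (ctl_ker_nonneg hR v x q.1)]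
  exact mul_le_mul_of_nonneg_left hq (ctl_ker_nonneg hR v x q.1)

theorem av_mono_nonneg (hR : Root S Q κ Cg T χ) (v : ℝ) (x : E m) {f g : E m × E n → ℝ}
    (hf : ∀ q, 0 ≤ f q) (hg : Integrable (fun q => Sys.ker χ v x q.1 * g q) S.μ)
    (h : ∀ q, f q ≤ g q) : S.avg χ v x f ≤ S.avg χ v x g := by
  unfold Sys.avg
  refine integral_mono_of_nonneg
    (Eventually.of_forall fun q => mul_nonneg (ctl_ker_nonneg hR v x q.1) (hf q)) hg
    (Eventually.of_forall fun q => mul_le_mul_of_nonneg_left (h q) (ctl_ker_nonneg hR v x q.1))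

theorem av_int_E (hR : Root S Q κ Cg T χ) {v : ℝ} (hv : 0 < v) (x : E m) (j : ℕ) :
    Integrable (fun q => Sys.ker χ v x q.1
      * ((1 + ‖uu x v q.1‖ ^ 2) ^ j * (S.e q + S.lam q))) S.μ := by
  have hV := hR.hyp.valid
  have hm1 : Measurable fun q : E m × E n => (1 + ‖uu x v q.1‖ ^ 2) ^ j :=
    ((measurable_const.add ((av_measurable_uu x v).norm.pow_const 2)).pow_const j)
  refine av_int hR hv x (hm1.mul (hV.meas_e.add hV.meas_lam)) (m + S.Cg) j (fun q => ?_)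
  have h1 := hV.e_nonneg q
  have h2 := hV.e_le q
  have h3 := hV.lam_nonneg q
  have h4 := hV.lam_le q
  have h5 : 0 ≤ (1 + ‖uu x v q.1‖ ^ 2) ^ j := by positivity
  rw [abs_of_nonneg (mul_nonneg h5 (by linarith)), mul_comm]
  exact mul_le_mul_of_nonneg_right (by linarith) h5

theorem av_int_e (hR : Root S Q κ Cg T χ) {v : ℝ} (hv : 0 < v) (x : E m) :
    Integrable (fun q => Sys.ker χ v x q.1 * S.e q) S.μ := by
  have hV := hR.hyp.valid
  refine av_int hR hv x hV.meas_e m 0 (fun q => ?_)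
  rw [abs_of_nonneg (hV.e_nonneg q), pow_zero, mul_one]
  exact hV.e_le q

theorem av_int_ind {v : ℝ} {x : E m} {f : E m × E n → ℝ} {A : Set (E m × E n)}
    (hA : MeasurableSet A) (hf : Integrable (fun q => Sys.ker χ v x q.1 * f q) S.μ) :
    Integrable (fun q => Sys.ker χ v x q.1 * A.indicator f q) S.μ := by
  refine (hf.indicator hA).congr (Eventually.of_forall fun q => ?_)
  by_cases hq : q ∈ A
  · simp only [indicator_of_mem hq]
  · simp only [indicator_of_notMem hq, mul_zero]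

end Root

/-- the tail integrand. -/
noncomputable def tlE (P : PD m n Q) (v R : ℝ) (j : ℕ) : E m × E n → ℝ :=
  fun q => {q : E m × E n | R * v < ‖q.1 - P.x‖}.indicator
    (fun q => (1 + ‖uu P.x v q.1‖ ^ 2) ^ j * (P.S.e q + P.S.lam q)) q

theorem measurableSet_tl (x : E m) (r : ℝ) : MeasurableSet {q : E m × E n | r < ‖q.1 - x‖} := by
  apply measurableSet_lt measurable_const
  fun_prop

/-- An integrand which is `a0 e` on the pure part and `O(e)` everywhere. -/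
theorem pure_avg {κ Cg : ℝ} {P : PD m n Q} (hP : P.Ok κ Cg) {v R cv a0 c0 : ℝ} (hv : 0 < v)
    (W : Finset (E n)) {N : E m × E n → ℝ} (hNm : Measurable N) (hc0 : 0 ≤ c0)
    (hN : ∀ q, |N q| ≤ c0 * P.S.e q)
    (hpure : ∀ q : E m × E n, q.2 ∈ nearSet W cv → infDist q.2 (W : Set (E n)) < cv * v →
      N q = a0 * P.S.e q)
    (hrough : ∀ q ∈ P.S.spt, ‖q.1 - P.x‖ ≤ R * v → infDist q.2 (W : Set (E n)) < cv * v) :
    |P.S.avg P.χ v P.x N - a0 * P.Dv v|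
      ≤ (c0 + |a0|) * (P.Dtr W cv v + P.S.avg P.χ v P.x (tlE P v R 0)) := by
  have hR := hP.root
  have hV := hR.hyp.valid
  have ie := av_int_e hR hv P.x
  have iN : Integrable (fun q => Sys.ker P.χ v P.x q.1 * N q) P.S.μ := by
    refine av_int hR hv P.x hNm (c0 * m) 0 (fun q => ?_)
    rw [pow_zero, mul_one]
    exact (hN q).trans (mul_le_mul_of_nonneg_left (hV.e_le q) hc0)
  have hAtr : MeasurableSet {q : E m × E n | q.2 ∈ trSet W cv} :=
    measurable_snd (measurableSet_trSet W cv)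
  have it := av_int_ind hAtr ie
  have il : Integrable (fun q => Sys.ker P.χ v P.x q.1 * tlE P v R 0 q) P.S.μ :=
    av_int_ind (measurableSet_tl P.x (R * v)) (av_int_E hR hv P.x 0)
  have e1 : P.S.avg P.χ v P.x N - a0 * P.Dv v
      = P.S.avg P.χ v P.x (fun q => N q - a0 * P.S.e q) := by
    rw [av_sub iN (av_int_const_mul _ ie), av_const_mul]
    rfl
  have e2 : (c0 + |a0|) * (P.Dtr W cv v + P.S.avg P.χ v P.x (tlE P v R 0))
      = P.S.avg P.χ v P.x (fun q => (c0 + |a0|) *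
          ({q : E m × E n | q.2 ∈ trSet W cv}.indicator P.S.e q + tlE P v R 0 q)) := by
    rw [av_const_mul, av_add it il]
    rfl
  rw [e1, e2]
  refine av_abs_le hR v P.x (av_int_const_mul _ (av_int_add it il)) ?_
  filter_upwards [P.S.ae_mem_spt] with q hq
  have he := hV.e_nonneg q
  have hl := hV.lam_nonneg q
  have hc : 0 ≤ c0 + |a0| := by positivity
  have hgen : |N q - a0 * P.S.e q| ≤ (c0 + |a0|) * P.S.e q := by
    calc |N q - a0 * P.S.e q| ≤ |N q| + |a0 * P.S.e q| := abs_sub _ _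
      _ ≤ c0 * P.S.e q + |a0| * P.S.e q := by
          rw [abs_mul, abs_of_nonneg he]
          linarith [hN q]
      _ = _ := by ring
  have htl0 : 0 ≤ tlE P v R 0 q := by
    unfold tlE
    exact indicator_nonneg (fun q _ => by
      have := hV.e_nonneg q
      have := hV.lam_nonneg q
      positivity) q
  have htr0 : 0 ≤ {q : E m × E n | q.2 ∈ trSet W cv}.indicator P.S.e q :=
    indicator_nonneg (fun q _ => hV.e_nonneg q) q
  by_cases h1 : q.2 ∈ trSet W cv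
  · have h2 : q ∈ {q : E m × E n | q.2 ∈ trSet W cv} := h1
    rw [indicator_of_mem h2]
    refine hgen.trans (mul_le_mul_of_nonneg_left ?_ hc)
    linarith
  · have hnear : q.2 ∈ nearSet W cv := by
      unfold trSet at h1
      simpa using h1
    by_cases h3 : ‖q.1 - P.x‖ ≤ R * v
    · rw [hpure q hnear (hrough q hq h3), sub_self, abs_zero]
      positivity
    · have h4 : q ∈ {q : E m × E n | R * v < ‖q.1 - P.x‖} := not_le.1 h3
      have h5 : tlE P v R 0 q = P.S.e q + P.S.lam q := by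
        unfold tlE
        rw [indicator_of_mem h4, pow_zero, one_mul]
      refine hgen.trans (mul_le_mul_of_nonneg_left ?_ hc)
      rw [h5]
      linarith

theorem gam_le_two (Γ0 : E n → ℝ) (s : ℝ) (ζ : E n) : gam Γ0 s ζ ≤ 2 * s ^ 2 := by
  unfold gam
  have := clip_le_two (Γ0 ζ / s ^ 2)
  nlinarith [sq_nonneg s]

theorem av_int_gam {κ Cg : ℝ} {P : PD m n Q} (h : P.Ok κ Cg) {v : ℝ} (hv : 0 < v) {Γ0 : E n → ℝ}
    (hc : Continuous Γ0) (h0 : ∀ ζ, 0 ≤ gam Γ0 v ζ) :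
    Integrable (fun q => Sys.ker P.χ v P.x q.1 * gam Γ0 v q.2) P.S.μ := by
  refine av_int h.root hv P.x ((gam_continuous hc v).measurable.comp measurable_snd)
    (2 * v ^ 2) 0 (fun q => ?_)
  rw [abs_of_nonneg (h0 q.2), pow_zero, mul_one]
  exact gam_le_two Γ0 v q.2

/-- the three curved error averages of `gauss_normal`, for a field with `|w|² ≤ Cq Γ_v`, `|Dw| ≤ Cd`. -/
theorem normal_err_avg {κ Cg : ℝ} {P : PD m n Q} (hP : P.Ok κ Cg) {v Cq Cd a0 a1 : ℝ} (hv : 0 < v)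
    {Γ0 : E n → ℝ} {w : E n → E n} (hc : Continuous Γ0) (h0 : ∀ ζ, 0 ≤ gam Γ0 v ζ)
    (hw : ∀ ζ, ‖w ζ‖ ^ 2 ≤ Cq * gam Γ0 v ζ) (hD : ∀ ζ, ‖fderiv ℝ w ζ‖ ≤ Cd)
    (ha0 : P.S.avg P.χ v P.x (fun q => (1 + ‖uu P.x v q.1‖ ^ 2) ^ 0 * (P.S.e q + P.S.lam q)) ≤ a0)
    (ha1 : P.S.avg P.χ v P.x (fun q => (1 + ‖uu P.x v q.1‖ ^ 2) ^ 1 * (P.S.e q + P.S.lam q)) ≤ a1) :
    P.S.avg P.χ v P.x (fun q => ‖fderiv ℝ w q.2‖ * Real.sqrt (P.S.e q * P.S.lam q)) ≤ Cd * a0 ∧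
    P.S.avg P.χ v P.x (fun q => ‖w q.2‖ * (Real.sqrt (P.S.e q) + Real.sqrt (P.S.lam q)))
      ≤ Cq / (2 * v) * P.U Γ0 v + v * a0 ∧
    P.S.avg P.χ v P.x (fun q => ‖w q.2‖ * ‖uu P.x v q.1‖ * Real.sqrt (P.S.e q))
      ≤ Cq / (2 * v) * P.U Γ0 v + v * a1 := by
  have hR := hP.root
  have hV := hR.hyp.valid
  have hCd : 0 ≤ Cd := (norm_nonneg _).trans (hD 0)
  have i0 := av_int_E hR hv P.x 0
  have i1 := av_int_E hR hv P.x 1
  have ig := av_int_gam hP hv hc h0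
  refine ⟨?_, ?_, ?_⟩
  · refine le_trans (av_mono_nonneg hR v P.x (fun q => by positivity) (av_int_const_mul Cd i0)
      (fun q => ?_)) ?_
    · have he := hV.e_nonneg q
      have hl := hV.lam_nonneg q
      have h1 : Real.sqrt (P.S.e q * P.S.lam q) ≤ P.S.e q + P.S.lam q := by
        rw [Real.sqrt_le_left (by linarith)]
        nlinarith
      rw [pow_zero, one_mul]
      exact mul_le_mul (hD q.2) h1 (Real.sqrt_nonneg _) hCd
    · rw [av_const_mul]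
      exact mul_le_mul_of_nonneg_left ha0 hCd
  · refine le_trans (av_mono_nonneg hR v P.x (fun q => by positivity)
      (av_int_add (av_int_const_mul (Cq / (2 * v)) ig) (av_int_const_mul v i0)) (fun q => ?_)) ?_
    · have he := hV.e_nonneg q
      have hl := hV.lam_nonneg q
      set a := Real.sqrt (P.S.e q) with ha
      set b := Real.sqrt (P.S.lam q) with hb
      have ha2 : a ^ 2 = P.S.e q := Real.sq_sqrt he
      have hb2 : b ^ 2 = P.S.lam q := Real.sq_sqrt hl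
      have h2 := hw q.2
      rw [pow_zero, one_mul, ← ha2, ← hb2]
      have h3 : ‖w q.2‖ * (a + b) ≤ ‖w q.2‖ ^ 2 / (2 * v) + v * (a + b) ^ 2 / 2 := by
        have h4 : 0 ≤ (‖w q.2‖ - v * (a + b)) ^ 2 := sq_nonneg _
        have h5 : ‖w q.2‖ ^ 2 / (2 * v) + v * (a + b) ^ 2 / 2 - ‖w q.2‖ * (a + b)
            = (‖w q.2‖ - v * (a + b)) ^ 2 / (2 * v) := by field_simp; ring
        have h6 : 0 ≤ (‖w q.2‖ - v * (a + b)) ^ 2 / (2 * v) := by positivity
        linarith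
      have h7 : ‖w q.2‖ ^ 2 / (2 * v) ≤ Cq / (2 * v) * gam Γ0 v q.2 := by
        rw [div_mul_eq_mul_div]
        exact div_le_div_of_nonneg_right h2 (by positivity)
      have h8 : v * (a + b) ^ 2 / 2 ≤ v * (a ^ 2 + b ^ 2) := by
        nlinarith [sq_nonneg (a - b)]
      linarith
    · rw [av_add (av_int_const_mul _ ig) (av_int_const_mul _ i0), av_const_mul, av_const_mul]
      have := mul_le_mul_of_nonneg_left ha0 hv.le
      unfold PD.U
      linarith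
  · refine le_trans (av_mono_nonneg hR v P.x (fun q => by positivity)
      (av_int_add (av_int_const_mul (Cq / (2 * v)) ig) (av_int_const_mul v i1)) (fun q => ?_)) ?_
    · have he := hV.e_nonneg q
      have hl := hV.lam_nonneg q
      set a := Real.sqrt (P.S.e q) with ha
      have ha2 : a ^ 2 = P.S.e q := Real.sq_sqrt he
      have ha0' : 0 ≤ a := Real.sqrt_nonneg _
      set t := ‖uu P.x v q.1‖ with ht
      have ht0 : 0 ≤ t := norm_nonneg _
      have h2 := hw q.2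
      rw [pow_one, ← ha2]
      have h3 : ‖w q.2‖ * t * a ≤ ‖w q.2‖ ^ 2 / (2 * v) + v * (t * a) ^ 2 / 2 := by
        have h5 : ‖w q.2‖ ^ 2 / (2 * v) + v * (t * a) ^ 2 / 2 - ‖w q.2‖ * t * a
            = (‖w q.2‖ - v * (t * a)) ^ 2 / (2 * v) := by field_simp; ring
        have h6 : 0 ≤ (‖w q.2‖ - v * (t * a)) ^ 2 / (2 * v) := by positivity
        linarith
      have h7 : ‖w q.2‖ ^ 2 / (2 * v) ≤ Cq / (2 * v) * gam Γ0 v q.2 := by
        rw [div_mul_eq_mul_div]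
        exact div_le_div_of_nonneg_right h2 (by positivity)
      have h8 : v * (t * a) ^ 2 / 2 ≤ v * ((1 + t ^ 2) * (a ^ 2 + P.S.lam q)) := by
        have h9 : (t * a) ^ 2 ≤ (1 + t ^ 2) * (a ^ 2 + P.S.lam q) := by
          have : 0 ≤ (1 + t ^ 2) * P.S.lam q := by positivity
          nlinarith [sq_nonneg a, sq_nonneg t]
        have h10 : 0 ≤ (t * a) ^ 2 := sq_nonneg _
        nlinarith
      linarith
    · rw [av_add (av_int_const_mul _ ig) (av_int_const_mul _ i1), av_const_mul, av_const_mul]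
      have := mul_le_mul_of_nonneg_left ha1 hv.le
      unfold PD.U
      linarith

/-- pure arithmetic behind `normal_err`. -/
theorem normal_err_num {v δ T k U γ eT Cn Cq Cd Ca0 Ca1 E1 E2 E3 tg V0 LP A1 : ℝ}
    (hv : 0 < v) (hv1 : v ≤ 1) (hδ : 0 < δ) (hT : 1 ≤ T) (hk : 1 / T ≤ k)
    (hU : U ≤ v ^ 2 * δ / k) (hγ0 : 0 ≤ γ) (hγ : γ ≤ eT) (hCn : 0 < Cn) (hCq : 0 ≤ Cq)
    (hCd : 0 ≤ Cd) (hCa0 : 0 < Ca0) (hCa1 : 0 < Ca1) (hV0 : 0 ≤ V0)
    (hE1 : E1 ≤ Cd * (Ca0 * δ)) (hE2 : E2 ≤ Cq / (2 * v) * U + v * (Ca0 * δ))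
    (hE3 : E3 ≤ Cq / (2 * v) * U + v * (Ca1 * δ))
    (hA1 : A1 = Cd * Ca0 + Cq + Ca0 + Ca1)
    (hS1 : 2 * Cn * (A1 + V0) * T * eT ≤ LP) (hS4 : 2 * Cn * (A1 + V0) * tg ≤ LP * δ)
    (hLP : 0 ≤ LP) :
    Cn * γ * (v ^ 2 * E1 + v ^ 2 * E2 + v * E3) + Cn * V0 * v ^ 2 * tg ≤ LP * (v ^ 2 * δ) := by
  have hT0 : 0 < T := by linarith
  have hk0 : 0 < k := lt_of_lt_of_le (by positivity) hk
  have hX : 0 < v ^ 2 * δ := by positivity
  have hU' : U ≤ v ^ 2 * δ * T := by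
    refine hU.trans ?_
    rw [div_le_iff₀ hk0]
    have : 1 ≤ T * k := by
      rw [div_le_iff₀ hT0] at hk; linarith
    nlinarith
  have hqU : Cq / (2 * v) * U ≤ Cq * (v * δ * T) / 2 := by
    calc Cq / (2 * v) * U ≤ Cq / (2 * v) * (v ^ 2 * δ * T) :=
          mul_le_mul_of_nonneg_left hU' (by positivity)
      _ = _ := by field_simp
  have hA10 : 0 ≤ A1 := by rw [hA1]; positivity
  have heT : 0 ≤ eT := hγ0.trans hγ
  have hsum : v ^ 2 * E1 + v ^ 2 * E2 + v * E3 ≤ (v ^ 2 * δ) * (T * A1) := by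
    have h1 : v ^ 2 * E1 ≤ (v ^ 2 * δ) * (T * (Cd * Ca0)) := by
      calc v ^ 2 * E1 ≤ v ^ 2 * (Cd * (Ca0 * δ)) := mul_le_mul_of_nonneg_left hE1 (by positivity)
        _ = (v ^ 2 * δ) * (1 * (Cd * Ca0)) := by ring
        _ ≤ _ := by gcongr
    have h2 : v ^ 2 * E2 ≤ (v ^ 2 * δ) * (T * (Cq / 2 + Ca0)) := by
      calc v ^ 2 * E2 ≤ v ^ 2 * (Cq * (v * δ * T) / 2 + v * (Ca0 * δ)) :=
            mul_le_mul_of_nonneg_left (by linarith) (by positivity)
        _ = (v ^ 2 * δ) * (v * (T * (Cq / 2) + 1 * Ca0)) := by ring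
        _ ≤ (v ^ 2 * δ) * (1 * (T * (Cq / 2) + T * Ca0)) := by gcongr
        _ = _ := by ring
    have h3 : v * E3 ≤ (v ^ 2 * δ) * (T * (Cq / 2 + Ca1)) := by
      calc v * E3 ≤ v * (Cq * (v * δ * T) / 2 + v * (Ca1 * δ)) :=
            mul_le_mul_of_nonneg_left (by linarith) hv.le
        _ = (v ^ 2 * δ) * (T * (Cq / 2) + 1 * Ca1) := by ring
        _ ≤ (v ^ 2 * δ) * (T * (Cq / 2) + T * Ca1) := by gcongr
        _ = _ := by ring
    rw [hA1]
    nlinarith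
  have herr1 : Cn * γ * (v ^ 2 * E1 + v ^ 2 * E2 + v * E3) ≤ LP / 2 * (v ^ 2 * δ) := by
    have h0 : 0 ≤ (v ^ 2 * δ) * (T * A1) := by positivity
    calc Cn * γ * (v ^ 2 * E1 + v ^ 2 * E2 + v * E3)
        ≤ Cn * γ * ((v ^ 2 * δ) * (T * A1)) := mul_le_mul_of_nonneg_left hsum (by positivity)
      _ ≤ Cn * eT * ((v ^ 2 * δ) * (T * A1)) := by gcongr
      _ = (2 * Cn * A1 * T * eT) / 2 * (v ^ 2 * δ) := by ring
      _ ≤ (2 * Cn * (A1 + V0) * T * eT) / 2 * (v ^ 2 * δ) := by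
          gcongr
          linarith
      _ ≤ _ := by gcongr
  have herr2 : Cn * V0 * v ^ 2 * tg ≤ LP / 2 * (v ^ 2 * δ) := by
    by_cases htg : 0 ≤ tg
    · calc Cn * V0 * v ^ 2 * tg = (2 * Cn * V0 * tg) / 2 * v ^ 2 := by ring
        _ ≤ (2 * Cn * (A1 + V0) * tg) / 2 * v ^ 2 := by
            gcongr
            linarith
        _ ≤ (LP * δ) / 2 * v ^ 2 := by gcongr
        _ = _ := by ring
    · have h1 : Cn * V0 * v ^ 2 * tg ≤ 0 :=
        mul_nonpos_of_nonneg_of_nonpos (by positivity) (by linarith)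
      have h2 : 0 ≤ LP / 2 * (v ^ 2 * δ) := by positivity
      linarith
  linarith

/-- normal stationarity at a controlled scale, all errors absorbed. -/
theorem normal_err (m n Q : ℕ) (hm : 1 ≤ m) (hQ : 1 ≤ Q) (κ Cg : ℝ) (hκ : 0 < κ)
    (K1 J Cq Cd Pe : ℝ) (hK1 : 1 ≤ K1) (hJ : 0 ≤ J) (hCq : 0 ≤ Cq) (hCd : 0 ≤ Cd) :
    ∃ T0 : ℝ, ∀ P : PD m n Q, P.Ok κ Cg → T0 ≤ P.T → ∀ v δ, P.Ctl K1 J v δ →
      ∀ (Γ0 : E n → ℝ) (w : E n → E n), Continuous Γ0 → (∀ ζ, 0 ≤ gam Γ0 v ζ) → ContDiff ℝ 1 w →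
      (∀ ζ, ‖w ζ‖ ^ 2 ≤ Cq * gam Γ0 v ζ) → (∀ ζ, ‖fderiv ℝ w ζ‖ ≤ Cd) →
      ∀ k : ℝ, 1 / P.T ≤ k → k ≤ 1 → P.U Γ0 v ≤ v ^ 2 * δ / k →
      |v * P.S.avg P.χ v P.x (fun q => ⟪w q.2, P.S.Pvh q (uu P.x v q.1)⟫_ℝ)
          - v ^ 2 * P.S.avg P.χ v P.x (fun q => tr (P.S.Pvv q ∘L fderiv ℝ w q.2))|
        ≤ lev δ ^ (-Pe) * (v ^ 2 * δ) := by
  obtain ⟨Cn, hCn, hgn⟩ := gauss_normal m n Cg
  obtain ⟨K0, Tc, hchart⟩ := PD.chart m n Q κ Cg
  obtain ⟨Ca0, T1, hCa0, ha0⟩ := ctl_avgE m n Q hm hQ κ Cg K1 J hK1 hJ 0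
  obtain ⟨Ca1, T2, hCa1, ha1⟩ := ctl_avgE m n Q hm hQ κ Cg K1 J hK1 hJ 1
  obtain ⟨T3, hsm⟩ := ctl_smalls m n Q hQ κ K1
    (2 * Cn * ((Cd * Ca0 + Cq + Ca0 + Ca1) + (Cq + 1))) 1 Pe 1 1 K0 1 hκ hK1 one_pos one_pos
  refine ⟨max (max Tc T1) (max T2 T3), fun P hP hT v δ h Γ0 w hc h0 hw1 hw hD k hk hk1 hU => ?_⟩
  have hTc : Tc ≤ P.T := le_trans (by simp) hT
  have hT1 : T1 ≤ P.T := le_trans (by simp) hT
  have hT2 : T2 ≤ P.T := le_trans (by simp) hT
  have hT3 : T3 ≤ P.T := le_trans (by simp) hT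
  obtain ⟨hTt, -, hρ1, hl2, -, hS1, -, -, hS4⟩ := hsm P hT3 J v δ h
  have hR := hP.root
  have hv := h.v_pos
  have hv1 : v ≤ 1 := by
    have h5 : (1 : ℝ) ≤ P.T ^ 4 := one_le_pow₀ (by linarith)
    have := h.mul_le (t := 1) h5
    linarith
  have hV0 : ∀ ζ, ‖w ζ‖ ≤ Cq + 1 := by
    intro ζ
    have h1 := (hw ζ).trans (mul_le_mul_of_nonneg_left (gam_le_two Γ0 v ζ) hCq)
    have h2 : v ^ 2 ≤ 1 := pow_le_one₀ hv.le hv1
    have h3 : ‖w ζ‖ ^ 2 ≤ (Cq + 1) ^ 2 := by nlinarith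
    exact (pow_le_pow_iff_left₀ (norm_nonneg _) (by linarith) two_ne_zero).1 h3
  have hg := hgn P.S hR.hyp.valid hR.hyp.Cg_le P.χ 0 P.x 2 1 1 K0 v (hchart P hP hTc) hv hv1 w
    (Cq + 1) hw1 hV0
  obtain ⟨hE1, hE2, hE3⟩ := normal_err_avg hP hv hc h0 hw hD (ha0 P hP hT1 v δ h) (ha1 P hP hT2 v δ h)
  refine hg.trans ?_
  rw [Real.rpow_one] at hS1
  have hLP : 0 ≤ lev δ ^ (-Pe) := Real.rpow_nonneg (by linarith) _
  exact normal_err_num hv hv1 h.δ_pos (by linarith) hk hU hR.hyp.valid.γ_nonneg hR.hyp.geom hCn hCq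
    hCd hCa0 hCa1 (by linarith) hE1 hE2 hE3 rfl hS1 hS4 hLP

end Claimed.Agent.R322.Sx
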